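import Claimed.Agent.R316.Pack018

/-!
# Row 316, `BP-G10`, leaf `G10-8`: measure theory: ball bounds ⟹ Gaussian weighted integrability (space and space-time)

Statements by helper268 (frozen; prefix for auxiliary lemmas: `nti_`).  KERNEL FREE; Part C of `Base/Heat/Api.lean` (`Vb_le`, `integrable_gauss`, `subGauss_of_bounded`,
`subGauss_of_ball_integrals`) follows from this file with `HD.vol`.

Tools: `Base/Metric/Topo.lean` (`continuousOn_hdist_right`, `measurable_hdist_right`, `measurableSet_hball`, `hball_subset_hcball`…), `Base/Vol/Basic.lean`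
(`ae_mem_carrier`, `integrableOn_hvol_of_continuousOn`, `aestronglyMeasurable_hvol_of_continuousOn`, `sigmaFinite_hvol`), `CM/Top.lean` (`CMfd.isLocallyClosed_carrier` ⟹ the carrier is measurable).

* `nt_lintegral_gauss_le` (the quantitative annuli lemma).  `r = hdist o ·`.  The carrier is the disjoint union of `A_k = {k ≤ r < k+1} ⊆ hball o (k+1)`, `k : ℕ`; on `A_k`: `e^{-c r²} ≤ e^{-c k²}`;
  `∫⁻ f e^{-c r²} ≤ ∑_k e^{-c k²} ∫⁻_{hball o (k+1)} f ≤ ∑_k e^{-c k²} K (k+1)^q =: K · ntGaussSum c q`, and the series converges (`e^{-c k²} ≤ e^{-c k}`,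
  `summable_pow_mul_geometric_of_norm_lt_one`).
* `nt_integrableOn_st`: measurability by `nt_aestronglyMeasurable_st`; finiteness: Tonelli (`lintegral_prod`) and `nt_lintegral_gauss_le` for every `t ∈ [0,T]`
  (convert the Bochner ball integrals by `ofReal_integral_eq_lintegral_ofReal`, `nt_integrableOn_hball`).
* `nt_aestronglyMeasurable_st`: `(volume.prod μ).restrict (Icc ×ˢ univ)` is carried by the measurable set `Icc 0 T ×ˢ carrier` (`Measure.prod_restrict`, `hvol_restrict_carrier`);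
  `ContinuousOn.aestronglyMeasurable`.
-/

set_option autoImplicit false
set_option linter.unusedSectionVars false
set_option linter.unusedVariables false
open scoped ContDiff ComplexOrder Topology ENNReal
open MeasureTheory

namespace Claimed.Agent.R316

variable {V : Type} [NormedAddCommGroup V] [NormedSpace ℝ V] [FiniteDimensional ℝ V]
  [MeasurableSpace V] [BorelSpace V]
variable {n : ℕ}
variable {𝓜 : CMfd V (Fin n)} {g : HFam V (Fin n)} {o : V}

/-- continuous functions are integrable on metric balls. -/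
theorem nt_integrableOn_hball (S : AnaSetting 𝓜 g) (ho : o ∈ 𝓜.carrier) {f : V → ℝ}
    (hf : ContinuousOn f 𝓜.carrier) (R : ℝ) : IntegrableOn f (hball 𝓜 g o R) (hvol 𝓜 g) := by
  have : ProperSpace V := FiniteDimensional.proper_real V
  exact (integrableOn_hvol_of_continuousOn S.kahler.toIsMetric (S.proper o ho R)
    (hcball_subset_carrier _ _ _ _) (hf.mono (hcball_subset_carrier _ _ _ _))).mono_set
    (hball_subset_hcball _ _ _ _)

/-- polynomial volume growth. -/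
theorem nt_Vb_le (VC : VolComparison 𝓜 g) (ho : o ∈ 𝓜.carrier) :
    ∃ C : ℝ, 0 ≤ C ∧ ∀ R : ℝ, 1 ≤ R → Vb 𝓜 g o R ≤ C * R ^ (2 * n) := by
  obtain ⟨C, hC, h⟩ := VC.ratio
  have hV : 0 ≤ Vb 𝓜 g o 1 := ENNReal.toReal_nonneg
  refine ⟨C * Vb 𝓜 g o 1, by positivity, fun R hR => ?_⟩
  have := h o ho 1 R one_pos hR
  rw [div_one] at this
  linarith

/-- integral of a constant over a ball. -/
theorem nt_setIntegral_const_hball (VC : VolComparison 𝓜 g) (ho : o ∈ 𝓜.carrier) (c R : ℝ) :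
    ∫ _x in hball 𝓜 g o R, c ∂(hvol 𝓜 g) = c * Vb 𝓜 g o R := by
  rw [setIntegral_const, smul_eq_mul, mul_comm]
  rfl

/-- the constant of the annuli lemma. -/
noncomputable def ntGaussSum (c : ℝ) (q : ℕ) : ℝ :=
  ∑' k : ℕ, Real.exp (-(c * (k : ℝ) ^ 2)) * ((k : ℝ) + 1) ^ q

theorem nt_integ_eqns_cite : True := by
  have := @ntGaussSum.eq_1
  trivial

theorem nti_summable {c : ℝ} (hc : 0 < c) (q : ℕ) :
    Summable fun k : ℕ => Real.exp (-(c * (k : ℝ) ^ 2)) * ((k : ℝ) + 1) ^ q := by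
  have h1 := (summable_nat_add_iff 1).2 (Real.summable_pow_mul_exp_neg_nat_mul q hc)
  refine Summable.of_nonneg_of_le (fun k => by positivity) (fun k => ?_) (h1.mul_left (Real.exp c))
  have h2 : (k : ℝ) ≤ (k : ℝ) ^ 2 := by
    rcases Nat.eq_zero_or_pos k with rfl | hk
    · simp
    · have : (1 : ℝ) ≤ k := by exact_mod_cast hk
      nlinarith
  have h3 : Real.exp (-(c * (k : ℝ) ^ 2)) ≤ Real.exp c * Real.exp (-c * ((k + 1 : ℕ) : ℝ)) := by
    rw [← Real.exp_add]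
    apply Real.exp_le_exp.2
    push_cast
    nlinarith
  calc Real.exp (-(c * (k : ℝ) ^ 2)) * ((k : ℝ) + 1) ^ q
      ≤ (Real.exp c * Real.exp (-c * ((k + 1 : ℕ) : ℝ))) * ((k : ℝ) + 1) ^ q :=
        mul_le_mul_of_nonneg_right h3 (by positivity)
    _ = Real.exp c * (((k + 1 : ℕ) : ℝ) ^ q * Real.exp (-c * ((k + 1 : ℕ) : ℝ))) := by
        push_cast; ring

/-- **annuli lemma**, quantitative. -/
theorem nt_lintegral_gauss_le (S : AnaSetting 𝓜 g) (ho : o ∈ 𝓜.carrier) {f : V → ℝ}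
    (hf : ContinuousOn f 𝓜.carrier) (h0 : ∀ x ∈ 𝓜.carrier, 0 ≤ f x) {K : ℝ} {q : ℕ}
    (hK : ∀ R : ℝ, 1 ≤ R → ∫ x in hball 𝓜 g o R, f x ∂(hvol 𝓜 g) ≤ K * R ^ q) {c : ℝ} (hc : 0 < c) :
    ∫⁻ x, ENNReal.ofReal (f x * Real.exp (-(c * hdist 𝓜 g o x ^ 2))) ∂(hvol 𝓜 g) ≤
      ENNReal.ofReal (K * ntGaussSum c q) := by
  have : ProperSpace V := FiniteDimensional.proper_real V
  have hm := S.kahler.toIsMetric
  have hK0 : 0 ≤ K := by
    have h1 := hK 1 le_rfl
    have h2 : 0 ≤ ∫ x in hball 𝓜 g o 1, f x ∂(hvol 𝓜 g) :=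
      integral_nonneg_of_ae (ae_restrict_of_ae (ae_hvol_of_forall_mem h0))
    rw [one_pow, mul_one] at h1
    linarith
  have hms : ∀ k : ℕ, MeasurableSet (hball 𝓜 g o ((k : ℝ) + 1)) :=
    fun k => measurableSet_hball hm S.conn o _
  have hfm : AEMeasurable (fun x => ENNReal.ofReal (f x)) (hvol 𝓜 g) :=
    ENNReal.measurable_ofReal.comp_aemeasurable
      (aestronglyMeasurable_hvol_of_continuousOn hf).aemeasurable
  have hterm : ∀ k : ℕ, ∫⁻ x, ENNReal.ofReal (Real.exp (-(c * (k : ℝ) ^ 2)))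
      * (hball 𝓜 g o ((k : ℝ) + 1)).indicator (fun x => ENNReal.ofReal (f x)) x ∂(hvol 𝓜 g)
      ≤ ENNReal.ofReal (K * (Real.exp (-(c * (k : ℝ) ^ 2)) * ((k : ℝ) + 1) ^ q)) := by
    intro k
    rw [lintegral_const_mul' _ _ ENNReal.ofReal_ne_top, lintegral_indicator (hms k),
      ← ofReal_integral_eq_lintegral_ofReal (nt_integrableOn_hball S ho hf _)
        (ae_restrict_of_ae (ae_hvol_of_forall_mem h0)),
      ← ENNReal.ofReal_mul (Real.exp_pos _).le]
    apply ENNReal.ofReal_le_ofReal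
    have h1 := hK ((k : ℝ) + 1) (by linarith [(Nat.cast_nonneg k : (0 : ℝ) ≤ k)])
    calc _ ≤ Real.exp (-(c * (k : ℝ) ^ 2)) * (K * ((k : ℝ) + 1) ^ q) :=
          mul_le_mul_of_nonneg_left h1 (Real.exp_pos _).le
      _ = _ := by ring
  calc ∫⁻ x, ENNReal.ofReal (f x * Real.exp (-(c * hdist 𝓜 g o x ^ 2))) ∂(hvol 𝓜 g)
      ≤ ∫⁻ x, ∑' k : ℕ, ENNReal.ofReal (Real.exp (-(c * (k : ℝ) ^ 2)))
        * (hball 𝓜 g o ((k : ℝ) + 1)).indicator (fun x => ENNReal.ofReal (f x)) x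
          ∂(hvol 𝓜 g) := by
        refine lintegral_mono_ae (ae_hvol_of_forall_mem fun x hx => ?_)
        have hr := hdist_nonneg 𝓜 g o x
        refine le_trans ?_ (ENNReal.le_tsum ⌊hdist 𝓜 g o x⌋₊)
        have h1 : ((⌊hdist 𝓜 g o x⌋₊ : ℕ) : ℝ) ≤ hdist 𝓜 g o x := Nat.floor_le hr
        have h2 : hdist 𝓜 g o x < (⌊hdist 𝓜 g o x⌋₊ : ℕ) + 1 := Nat.lt_floor_add_one _
        rw [Set.indicator_of_mem (show x ∈ hball 𝓜 g o _ from ⟨hx, h2⟩),
          ← ENNReal.ofReal_mul (Real.exp_pos _).le, mul_comm (f x)]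
        apply ENNReal.ofReal_le_ofReal
        refine mul_le_mul_of_nonneg_right (Real.exp_le_exp.2 ?_) (h0 x hx)
        have h3 : ((⌊hdist 𝓜 g o x⌋₊ : ℕ) : ℝ) ^ 2 ≤ hdist 𝓜 g o x ^ 2 :=
          pow_le_pow_left₀ (Nat.cast_nonneg _) h1 2
        nlinarith
    _ = ∑' k : ℕ, ∫⁻ x, ENNReal.ofReal (Real.exp (-(c * (k : ℝ) ^ 2)))
        * (hball 𝓜 g o ((k : ℝ) + 1)).indicator (fun x => ENNReal.ofReal (f x)) x
          ∂(hvol 𝓜 g) :=
        lintegral_tsum fun k => (hfm.indicator (hms k)).const_mul _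
    _ ≤ ∑' k : ℕ, ENNReal.ofReal (K * (Real.exp (-(c * (k : ℝ) ^ 2)) * ((k : ℝ) + 1) ^ q)) :=
        ENNReal.tsum_le_tsum hterm
    _ = ENNReal.ofReal (K * ntGaussSum c q) := by
        rw [ntGaussSum, ← tsum_mul_left,
          ENNReal.ofReal_tsum_of_nonneg (fun k => by positivity) ((nti_summable hc q).mul_left K)]

theorem nti_restrict_eq (hg : IsMetric 𝓜 g) (T : ℝ) :
    ((volume : Measure ℝ).prod (hvol 𝓜 g)).restrict (Set.Icc 0 T ×ˢ Set.univ)
      = ((volume : Measure ℝ).restrict (Set.Icc 0 T)).prod (hvol 𝓜 g) := by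
  have : ProperSpace V := FiniteDimensional.proper_real V
  have := sigmaFinite_hvol hg
  rw [← Measure.prod_restrict, Measure.restrict_univ]

/-- space-time measurability. -/
theorem nt_aestronglyMeasurable_st (hg : IsMetric 𝓜 g) {T : ℝ} {F : ℝ × V → ℝ}
    (hF : ContinuousOn F (Set.Icc 0 T ×ˢ 𝓜.carrier)) :
    AEStronglyMeasurable F ((volume.prod (hvol 𝓜 g)).restrict (Set.Icc 0 T ×ˢ Set.univ)) := by
  have : ProperSpace V := FiniteDimensional.proper_real V
  have := sigmaFinite_hvol hg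
  have e : ((volume : Measure ℝ).prod (hvol 𝓜 g)).restrict (Set.Icc 0 T ×ˢ Set.univ)
      = ((volume : Measure ℝ).prod (hvol 𝓜 g)).restrict (Set.Icc 0 T ×ˢ 𝓜.carrier) := by
    rw [← Measure.prod_restrict, ← Measure.prod_restrict, Measure.restrict_univ,
      hvol_restrict_carrier]
  rw [e]
  exact hF.aestronglyMeasurable (measurableSet_Icc.prod 𝓜.measurableSet_carrier)

/-- **space-time weighted integrability from uniform polynomial ball bounds.** -/
theorem nt_integrableOn_st (S : AnaSetting 𝓜 g) (ho : o ∈ 𝓜.carrier) {T : ℝ} {F : ℝ → V → ℝ}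
    (hF : ContinuousOn (fun p : ℝ × V => F p.1 p.2) (Set.Icc 0 T ×ˢ 𝓜.carrier))
    (h0 : ∀ t ∈ Set.Icc (0 : ℝ) T, ∀ x ∈ 𝓜.carrier, 0 ≤ F t x) {K : ℝ} {q : ℕ}
    (hK : ∀ t ∈ Set.Icc (0 : ℝ) T, ∀ R : ℝ, 1 ≤ R →
      ∫ x in hball 𝓜 g o R, F t x ∂(hvol 𝓜 g) ≤ K * R ^ q) {c : ℝ} (hc : 0 < c) :
    IntegrableOn (fun p : ℝ × V => F p.1 p.2 * Real.exp (-(c * hdist 𝓜 g o p.2 ^ 2)))
      (Set.Icc 0 T ×ˢ Set.univ) (volume.prod (hvol 𝓜 g)) := by
  have : ProperSpace V := FiniteDimensional.proper_real V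
  have hm := S.kahler.toIsMetric
  have := sigmaFinite_hvol hm
  have hr : ContinuousOn (fun p : ℝ × V => hdist 𝓜 g o p.2) (Set.Icc 0 T ×ˢ 𝓜.carrier) :=
    (continuousOn_hdist_right hm S.conn ho).comp continuousOn_snd fun p hp => hp.2
  have hmeas := nt_aestronglyMeasurable_st hm (T := T)
    (F := fun p : ℝ × V => F p.1 p.2 * Real.exp (-(c * hdist 𝓜 g o p.2 ^ 2)))
    (hF.mul (Real.continuous_exp.comp_continuousOn ((continuousOn_const.mul (hr.pow 2)).neg)))
  refine ⟨hmeas, ?_⟩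
  rw [nti_restrict_eq hm T] at hmeas ⊢
  rw [HasFiniteIntegral, lintegral_prod _ hmeas.enorm]
  have h1 : ∀ᵐ t ∂((volume : Measure ℝ).restrict (Set.Icc 0 T)),
      ∫⁻ y, ‖F t y * Real.exp (-(c * hdist 𝓜 g o y ^ 2))‖ₑ ∂(hvol 𝓜 g)
        ≤ ENNReal.ofReal (K * ntGaussSum c q) := by
    filter_upwards [ae_restrict_mem measurableSet_Icc] with t ht
    have hFt : ContinuousOn (F t) 𝓜.carrier :=
      hF.comp (f := fun y : V => (t, y)) (continuous_const.prodMk continuous_id).continuousOn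
        (fun y hy => ⟨ht, hy⟩)
    refine le_trans (le_of_eq ?_) (nt_lintegral_gauss_le S ho hFt (h0 t ht) (hK t ht) hc)
    refine lintegral_congr_ae (ae_hvol_of_forall_mem fun y hy => ?_)
    exact Real.enorm_of_nonneg (mul_nonneg (h0 t ht y hy) (Real.exp_pos _).le)
  refine lt_of_le_of_lt (lintegral_mono_ae h1) ?_
  rw [lintegral_const, Measure.restrict_apply MeasurableSet.univ, Set.univ_inter, Real.volume_Icc]
  exact ENNReal.mul_lt_top ENNReal.ofReal_lt_top ENNReal.ofReal_lt_top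

/-- bounded continuous functions are in the class `SubGauss`. -/
theorem nt_subGauss_of_bounded (S : AnaSetting 𝓜 g) (VC : VolComparison 𝓜 g) (ho : o ∈ 𝓜.carrier)
    {f : V → ℝ} (hf : ContinuousOn f 𝓜.carrier) {A : ℝ} (hA : ∀ y ∈ 𝓜.carrier, |f y| ≤ A) :
    SubGauss 𝓜 g o f := by
  have : ProperSpace V := FiniteDimensional.proper_real V
  have hm := S.kahler.toIsMetric
  have hA0 : 0 ≤ A := le_trans (abs_nonneg _) (hA o ho)
  obtain ⟨C, hC, hVb⟩ := nt_Vb_le VC ho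
  intro ε hε
  have h1 := nt_lintegral_gauss_le S ho (f := fun _ => A) continuousOn_const (fun _ _ => hA0)
    (K := A * C) (q := 2 * n) (fun R hR => by
      rw [nt_setIntegral_const_hball VC ho, mul_assoc]
      exact mul_le_mul_of_nonneg_left (hVb R hR) hA0) hε
  have hr := continuousOn_hdist_right hm S.conn ho
  refine ⟨aestronglyMeasurable_hvol_of_continuousOn
    (hf.mul (Real.continuous_exp.comp_continuousOn ((continuousOn_const.mul (hr.pow 2)).neg))), ?_⟩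
  refine lt_of_le_of_lt (le_trans (lintegral_mono_ae (ae_hvol_of_forall_mem fun y hy => ?_)) h1)
    ENNReal.ofReal_lt_top
  rw [← ofReal_norm_eq_enorm, norm_mul, Real.norm_eq_abs, Real.norm_of_nonneg (Real.exp_pos _).le]
  exact ENNReal.ofReal_le_ofReal (mul_le_mul_of_nonneg_right (hA y hy) (Real.exp_pos _).le)

end Claimed.Agent.R316
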