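import Claimed.Agent.R316.Base.NiTam.Energy
import Claimed.Agent.R316.Base.NiTam.Integ

/-!
# Row 316, `BP-G10`, leaf `G10-7`: cutoffs from `GoodDist`; polynomial ball bounds for `|dd w|²`

Statements by helper268 (frozen; prefix for auxiliary lemmas: `ntc_`).

* `nt_exists_cutoff`.  `ρ` from `S.good o ho 1`: `|ρ - r²| ≤ 1`, `gradSq ρ ≤ (r+1)²`.  `η(s) = Real.smoothTransition (3 - s)` (`= 1` for `s ≤ 2`, `= 0` for `s ≥ 3`, `|η'| ≤ C₁`: the derivative is continuous and vanishes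
  outside `[2,3]`).  `φ = η (ρ/R²)`, `R ≥ 1`.  On `hball o R`: `ρ < R² + 1 ≤ 2R²`.  If `φ y ≠ 0`: `ρ < 3R²`, `r² < 3R² + 1 ≤ 4R²`, so `y ∈ hball o (2R) ⊆ hcball o (2R)`, compact (`S.proper`): `CSupp`.
  `gradSq φ = η'(ρ/R²)² gradSq ρ / R⁴ ≤ C₁² (2R+1)²/R⁴ ≤ 9 C₁²/R²` where `φ`'s derivative does not vanish (`gradSq_comp`, `gradSq_const_mul`), `= 0` elsewhere.
* `nt_ball_bound`.  `φ = φ_R`, `φ' = φ_{2R}`; `N = ipH g (dd w)(dd w) ≥ 0`:
  `∫_{B_R} N ≤ ∫ φ² N ≤ 8 M₁² Vb(2R) + 12 (C₀/R²) ∫_{B_{2R}} gradSq w` (`nt_energy`), `∫_{B_{2R}} gradSq w ≤ ∫ φ'² gradSq w ≤ 4 M₀² (C₀/(2R)²) Vb(4R) + 2 M₀ M₁ Vb(4R)` (`caccioppoli`),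
  `Vb(4R) ≤ C (4R)^{2n}` (`nt_Vb_le`), `Vb` monotone in the radius.
-/

set_option autoImplicit false
set_option linter.unusedSectionVars false
set_option linter.unusedVariables false
open scoped ContDiff ComplexOrder Topology
open MeasureTheory

namespace Claimed.Agent.R316

variable {V : Type} [NormedAddCommGroup V] [NormedSpace ℝ V] [FiniteDimensional ℝ V]
  [MeasurableSpace V] [BorelSpace V]
variable {n : ℕ}
variable {𝓜 : CMfd V (Fin n)} {g : HFam V (Fin n)} {o : V}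

/-- the derivative of `Real.smoothTransition` is bounded and vanishes outside `[0,1]`. -/
theorem ntc_deriv_st : ∃ C₁ : ℝ, 0 ≤ C₁ ∧ (∀ u, |deriv Real.smoothTransition u| ≤ C₁) ∧
    ∀ u, (u < 0 ∨ 1 < u) → deriv Real.smoothTransition u = 0 := by
  have hz : ∀ u, (u < 0 ∨ 1 < u) → deriv Real.smoothTransition u = 0 := by
    rintro u (hu | hu)
    · have : Real.smoothTransition =ᶠ[𝓝 u] fun _ => 0 := by
        filter_upwards [Iio_mem_nhds hu] with v hv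
        exact Real.smoothTransition.zero_of_nonpos (le_of_lt hv)
      rw [this.deriv_eq, deriv_const]
    · have : Real.smoothTransition =ᶠ[𝓝 u] fun _ => 1 := by
        filter_upwards [Ioi_mem_nhds hu] with v hv
        exact Real.smoothTransition.one_of_one_le (le_of_lt hv)
      rw [this.deriv_eq, deriv_const]
  have hc : Continuous (deriv Real.smoothTransition) :=
    (Real.smoothTransition.contDiff (n := 1)).continuous_deriv le_rfl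
  obtain ⟨C, hC⟩ := (isCompact_Icc (a := (0 : ℝ)) (b := 1)).exists_bound_of_continuousOn
    hc.continuousOn
  refine ⟨max C 0, le_max_right _ _, fun u => ?_, hz⟩
  by_cases hu : u ∈ Set.Icc (0 : ℝ) 1
  · exact le_trans (hC u hu) (le_max_left _ _)
  · have : u < 0 ∨ 1 < u := by
      by_contra h
      push Not at h
      exact hu ⟨h.1, h.2⟩
    rw [hz u this, abs_zero]
    exact le_max_right _ _

/-- smooth cutoffs at all scales `R ≥ 1`. -/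
theorem nt_exists_cutoff (S : AnaSetting 𝓜 g) (ho : o ∈ 𝓜.carrier) :
    ∃ C₀ : ℝ, 0 ≤ C₀ ∧ ∀ R : ℝ, 1 ≤ R → ∃ φ : V → ℝ, 𝓜.Smooth φ ∧ 𝓜.CSupp φ ∧
      (∀ y ∈ 𝓜.carrier, 0 ≤ φ y ∧ φ y ≤ 1) ∧ (∀ y ∈ hball 𝓜 g o R, φ y = 1) ∧
      (∀ y ∈ 𝓜.carrier, y ∉ hball 𝓜 g o (2 * R) → φ y = 0) ∧
      ∀ y ∈ 𝓜.carrier, gradSq 𝓜 g φ y ≤ C₀ / R ^ 2 := by
  have hm := S.kahler.toIsMetric
  obtain ⟨C₁, hC₁0, hC₁, hst0⟩ := ntc_deriv_st
  obtain ⟨ρ, hρs, hρd, -, hρg⟩ := S.good o ho 1 one_pos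
  refine ⟨9 * C₁ ^ 2, by positivity, fun R hR => ?_⟩
  have hR0 : 0 < R := by linarith
  have hR2 : 1 ≤ R ^ 2 := by nlinarith
  have hR2' : 0 < R ^ 2 := by positivity
  set χ : ℝ → ℝ := fun s => Real.smoothTransition (3 - s / R ^ 2) with hχ
  have hχs : ContDiff ℝ ∞ χ :=
    Real.smoothTransition.contDiff.comp (contDiff_const.sub (contDiff_id.div_const _))
  have hzero : ∀ y ∈ 𝓜.carrier, y ∉ hball 𝓜 g o (2 * R) → χ (ρ y) = 0 := by
    intro y hy hyb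
    have h1 : 2 * R ≤ hdist 𝓜 g o y := by
      by_contra h
      exact hyb ⟨hy, not_le.1 h⟩
    have h2 := (abs_le.1 (hρd y hy)).1
    apply Real.smoothTransition.zero_of_nonpos
    have h3 : 3 * R ^ 2 ≤ ρ y := by nlinarith
    have : 3 ≤ ρ y / R ^ 2 := by rw [le_div_iff₀ hR2']; exact h3
    linarith
  refine ⟨fun y => χ (ρ y), hρs.comp hχs, ⟨hcball 𝓜 g o (2 * R), S.proper o ho _,
    hcball_subset_carrier _ _ _ _, fun y hy hyK => hzero y hy fun h =>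
      hyK (hball_subset_hcball _ _ _ _ h)⟩,
    fun y _ => ⟨Real.smoothTransition.nonneg _, Real.smoothTransition.le_one _⟩, ?_, hzero, ?_⟩
  · intro y hy
    have h2 := (abs_le.1 (hρd y hy.1)).2
    have h0 := hdist_nonneg 𝓜 g o y
    apply Real.smoothTransition.one_of_one_le
    have h3 : ρ y ≤ 2 * R ^ 2 := by nlinarith [hy.2]
    have : ρ y / R ^ 2 ≤ 2 := by rw [div_le_iff₀ hR2']; exact h3
    linarith
  · intro y hy
    rw [gradSq_comp g hy (hχs.differentiable (by simp)).differentiableAt (hρs.diffAt hy)]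
    have hd : deriv χ (ρ y)
        = deriv Real.smoothTransition (3 - ρ y / R ^ 2) * (-(1 / R ^ 2)) := by
      have h1 : HasDerivAt (fun s : ℝ => 3 - s / R ^ 2) (-(1 / R ^ 2)) (ρ y) :=
        ((hasDerivAt_id (ρ y)).div_const (R ^ 2)).const_sub 3
      have h2 : HasDerivAt Real.smoothTransition
          (deriv Real.smoothTransition (3 - ρ y / R ^ 2)) (3 - ρ y / R ^ 2) :=
        ((Real.smoothTransition.contDiff (n := 1)).differentiable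
          (by simp)).differentiableAt.hasDerivAt
      exact (h2.comp (ρ y) h1).deriv
    rw [hd]
    by_cases hu : 3 - ρ y / R ^ 2 < 0 ∨ 1 < 3 - ρ y / R ^ 2
    · rw [hst0 _ hu, zero_mul, zero_pow two_ne_zero, zero_mul]
      positivity
    · push Not at hu
      have h3 : ρ y ≤ 3 * R ^ 2 := by
        have : ρ y / R ^ 2 ≤ 3 := by linarith [hu.1]
        rwa [div_le_iff₀ hR2'] at this
      have h4 := (abs_le.1 (hρd y hy)).1
      have h0 := hdist_nonneg 𝓜 g o y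
      have h5 : hdist 𝓜 g o y ≤ 2 * R := by
        by_contra h
        push Not at h
        nlinarith
      have h6 : gradSq 𝓜 g ρ y ≤ 9 * R ^ 2 := by
        refine le_trans (hρg y hy) ?_
        nlinarith
      have h7 := hC₁ (3 - ρ y / R ^ 2)
      have h8 : deriv Real.smoothTransition (3 - ρ y / R ^ 2) ^ 2 ≤ C₁ ^ 2 :=
        sq_le_sq' (abs_le.1 h7).1 (abs_le.1 h7).2
      have h9 : (deriv Real.smoothTransition (3 - ρ y / R ^ 2) * (-(1 / R ^ 2))) ^ 2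
          * gradSq 𝓜 g ρ y ≤ C₁ ^ 2 * (1 / R ^ 2) ^ 2 * (9 * R ^ 2) := by
        rw [mul_pow, neg_sq]
        exact mul_le_mul (mul_le_mul_of_nonneg_right h8 (sq_nonneg _)) h6
          (gradSq_nonneg hm ρ hy) (by positivity)
      refine le_trans h9 (le_of_eq ?_)
      field_simp

/-- a function `≤ c`, `≤ 0` outside a ball. -/
theorem ntc_integral_le (S : AnaSetting 𝓜 g) (VC : VolComparison 𝓜 g) (ho : o ∈ 𝓜.carrier)
    {F : V → ℝ} {c r : ℝ} (hF : ∀ x ∈ 𝓜.carrier, F x ≤ c)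
    (h0 : ∀ x ∈ 𝓜.carrier, x ∉ hball 𝓜 g o r → F x ≤ 0) (hc : 0 ≤ c) :
    ∫ x, F x ∂(hvol 𝓜 g) ≤ c * Vb 𝓜 g o r := by
  have hm := S.kahler.toIsMetric
  have hms := measurableSet_hball hm S.conn o r
  by_cases hi : Integrable F (hvol 𝓜 g)
  · rw [← nt_setIntegral_const_hball VC ho c r, ← integral_indicator hms]
    refine integral_hvol_mono hi ?_ fun x hx => ?_
    · exact (integrableOn_const (VC.finite o ho r)).integrable_indicator hms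
    · by_cases hxb : x ∈ hball 𝓜 g o r
      · rw [Set.indicator_of_mem hxb]; exact hF x hx
      · rw [Set.indicator_of_notMem hxb]; exact h0 x hx hxb
  · rw [integral_undef hi]
    exact mul_nonneg hc ENNReal.toReal_nonneg

/-- **`w`, `Δw` bounded ⟹ `∫_{B_R} |dd w|² ≤ K R^{2n}`**, `K` depending only on the bounds. -/
theorem nt_ball_bound (S : AnaSetting 𝓜 g) (VC : VolComparison 𝓜 g) (ho : o ∈ 𝓜.carrier)
    (M₀ M₁ : ℝ) : ∃ K : ℝ, 0 ≤ K ∧ ∀ w : V → ℝ, 𝓜.Smooth w → (∀ x ∈ 𝓜.carrier, |w x| ≤ M₀) →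
      (∀ x ∈ 𝓜.carrier, |lap 𝓜 g w x| ≤ M₁) → ∀ R : ℝ, 1 ≤ R →
        ∫ x in hball 𝓜 g o R, ipH 𝓜 g (ddc w) (ddc w) x ∂(hvol 𝓜 g) ≤ K * R ^ (2 * n) := by
  have : ProperSpace V := FiniteDimensional.proper_real V
  have hg := S.kahler
  have hm := hg.toIsMetric
  obtain ⟨C₀, hC₀, hcut⟩ := nt_exists_cutoff S ho
  obtain ⟨C, hC, hVb⟩ := nt_Vb_le VC ho
  refine ⟨(8 * M₁ ^ 2 + 12 * C₀ * (4 * (M₀ ^ 2 * C₀) + 2 * (M₀ ^ 2 + M₁ ^ 2))) * (C * 7 ^ (2 * n)),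
    by positivity, ?_⟩
  intro w hw hw0 hw1 R hR
  have hR0 : 0 < R := by linarith
  have hR2 : 1 ≤ R ^ 2 := by nlinarith
  obtain ⟨φ, hφs, hφc, hφ01, hφ1, hφ0, hφg⟩ := hcut R hR
  obtain ⟨ψ, hψs, hψc, hψ01, hψ1, hψ0, hψg⟩ := hcut (3 * R) (by linarith)
  have hNs : 𝓜.Smooth (ipH 𝓜 g (ddc w) (ddc w)) := smooth_ipH hm (isHForm_ddc hw) (isHForm_ddc hw)
  have hN0 : ∀ x ∈ 𝓜.carrier, 0 ≤ ipH 𝓜 g (ddc w) (ddc w) x :=
    fun x hx => ipH_self_nonneg hm (isHForm_ddc hw) hx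
  have hes : 𝓜.Smooth (gradSq 𝓜 g w) := smooth_gradSq hm hw
  have hW0 : 0 ≤ Vb 𝓜 g o (7 * R) := ENNReal.toReal_nonneg
  have hW : Vb 𝓜 g o (7 * R) ≤ C * 7 ^ (2 * n) * R ^ (2 * n) := by
    have := hVb (7 * R) (by linarith)
    rw [mul_pow] at this
    linarith
  have s1 : ∫ x in hball 𝓜 g o R, ipH 𝓜 g (ddc w) (ddc w) x ∂(hvol 𝓜 g)
      ≤ ∫ x, φ x ^ 2 * ipH 𝓜 g (ddc w) (ddc w) x ∂(hvol 𝓜 g) := by
    have hms := measurableSet_hball hm S.conn o R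
    rw [← integral_indicator hms]
    refine integral_hvol_mono
      ((nt_integrableOn_hball S ho hNs.continuousOn R).integrable_indicator hms)
      (integrable_hvol_of_csupp hm ((hφs.continuousOn.pow 2).mul hNs.continuousOn)
        ((hφc.pow two_ne_zero).mul_right _)) fun x hx => ?_
    by_cases hxb : x ∈ hball 𝓜 g o R
    · rw [Set.indicator_of_mem hxb, hφ1 x hxb, one_pow, one_mul]
    · rw [Set.indicator_of_notMem hxb]
      exact mul_nonneg (sq_nonneg _) (hN0 x hx)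
  have s2 := nt_energy hg S.ric hφs hφc hw
  have s3 : ∫ x, φ x ^ 2 * lap 𝓜 g w x ^ 2 ∂(hvol 𝓜 g) ≤ M₁ ^ 2 * Vb 𝓜 g o (7 * R) := by
    refine ntc_integral_le S VC ho (fun x hx => ?_) (fun x hx hxb => ?_) (sq_nonneg _)
    · have h1 := hφ01 x hx
      have h2 := hw1 x hx
      have h3 : lap 𝓜 g w x ^ 2 ≤ M₁ ^ 2 := sq_le_sq' (abs_le.1 h2).1 (abs_le.1 h2).2
      have h4 : φ x ^ 2 ≤ 1 := by nlinarith
      nlinarith [sq_nonneg (lap 𝓜 g w x), sq_nonneg (φ x)]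
    · rw [hφ0 x hx (fun h => hxb (hball_mono 𝓜 g o (by linarith) h))]
      simp
  have s4 : ∫ x, gradSq 𝓜 g φ x * gradSq 𝓜 g w x ∂(hvol 𝓜 g)
      ≤ C₀ / R ^ 2 * ∫ x, ψ x ^ 2 * gradSq 𝓜 g w x ∂(hvol 𝓜 g) := by
    rw [← integral_const_mul]
    refine integral_hvol_mono
      (integrable_hvol_of_csupp hm ((smooth_gradSq hm hφs).continuousOn.mul hes.continuousOn)
        ((hφc.gradSq g).mul_right _))
      ((integrable_hvol_of_csupp hm ((hψs.continuousOn.pow 2).mul hes.continuousOn)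
        ((hψc.pow two_ne_zero).mul_right _)).const_mul _) fun x hx => ?_
    by_cases hxb : x ∈ hball 𝓜 g o (3 * R)
    · rw [hψ1 x hxb, one_pow, one_mul]
      exact mul_le_mul_of_nonneg_right (hφg x hx) (gradSq_nonneg hm w hx)
    · have h1 : gradSq 𝓜 g φ x = 0 :=
        gradInner_eq_zero_of_notMem_left (K := hcball 𝓜 g o (2 * R)) (S.proper o ho _).isClosed
          (fun y hy hyK => hφ0 y hy fun h => hyK (hball_subset_hcball _ _ _ _ h)) g φ hx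
          (fun h => hxb ⟨hx, lt_of_le_of_lt h.2 (by linarith)⟩)
      rw [h1, zero_mul]
      exact mul_nonneg (by positivity) (mul_nonneg (sq_nonneg _) (gradSq_nonneg hm w hx))
  have s5 := caccioppoli hg hψs.locLip hψc hw
  have s6 : ∫ x, w x ^ 2 * gradSq 𝓜 g ψ x ∂(hvol 𝓜 g) ≤ M₀ ^ 2 * C₀ * Vb 𝓜 g o (7 * R) := by
    refine ntc_integral_le S VC ho (fun x hx => ?_) (fun x hx hxb => ?_) (by positivity)
    · have h2 := hw0 x hx
      have h3 : w x ^ 2 ≤ M₀ ^ 2 := sq_le_sq' (abs_le.1 h2).1 (abs_le.1 h2).2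
      have h4 : gradSq 𝓜 g ψ x ≤ C₀ := by
        refine le_trans (hψg x hx) (div_le_self hC₀ ?_)
        nlinarith
      exact mul_le_mul h3 h4 (gradSq_nonneg hm ψ hx) (sq_nonneg _)
    · have h1 : gradSq 𝓜 g ψ x = 0 :=
        gradInner_eq_zero_of_notMem_left (K := hcball 𝓜 g o (2 * (3 * R)))
          (S.proper o ho _).isClosed
          (fun y hy hyK => hψ0 y hy fun h => hyK (hball_subset_hcball _ _ _ _ h)) g ψ hx
          (fun h => hxb ⟨hx, lt_of_le_of_lt h.2 (by linarith)⟩)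
      rw [h1, mul_zero]
  have s7 : ∫ x, -(ψ x ^ 2 * (w x * lap 𝓜 g w x)) ∂(hvol 𝓜 g)
      ≤ (M₀ ^ 2 + M₁ ^ 2) * Vb 𝓜 g o (7 * R) := by
    refine ntc_integral_le S VC ho (fun x hx => ?_) (fun x hx hxb => ?_) (by positivity)
    · have h1 := hψ01 x hx
      have h2 := hw0 x hx
      have h3 := hw1 x hx
      have h4 : w x ^ 2 ≤ M₀ ^ 2 := sq_le_sq' (abs_le.1 h2).1 (abs_le.1 h2).2
      have h5 : lap 𝓜 g w x ^ 2 ≤ M₁ ^ 2 := sq_le_sq' (abs_le.1 h3).1 (abs_le.1 h3).2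
      have h6 : ψ x ^ 2 ≤ 1 := by nlinarith
      have h7 : -(w x * lap 𝓜 g w x) ≤ M₀ ^ 2 + M₁ ^ 2 := by
        nlinarith [sq_nonneg (w x + lap 𝓜 g w x)]
      have h8 : 0 ≤ M₀ ^ 2 + M₁ ^ 2 := by positivity
      nlinarith [sq_nonneg (ψ x), mul_le_mul_of_nonneg_left h7 (sq_nonneg (ψ x))]
    · rw [hψ0 x hx (fun h => hxb (hball_mono 𝓜 g o (by linarith) h))]
      simp
  rw [integral_neg] at s7
  have hq : C₀ / R ^ 2 ≤ C₀ := div_le_self hC₀ hR2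
  have hq0 : 0 ≤ C₀ / R ^ 2 := by positivity
  have s8 : ∫ x, ψ x ^ 2 * gradSq 𝓜 g w x ∂(hvol 𝓜 g)
      ≤ (4 * (M₀ ^ 2 * C₀) + 2 * (M₀ ^ 2 + M₁ ^ 2)) * Vb 𝓜 g o (7 * R) := by nlinarith
  have s9 : C₀ / R ^ 2 * ∫ x, ψ x ^ 2 * gradSq 𝓜 g w x ∂(hvol 𝓜 g)
      ≤ C₀ * ((4 * (M₀ ^ 2 * C₀) + 2 * (M₀ ^ 2 + M₁ ^ 2)) * Vb 𝓜 g o (7 * R)) :=
    le_trans (mul_le_mul_of_nonneg_left s8 hq0)
      (mul_le_mul_of_nonneg_right hq (by positivity))
  have s10 : ∫ x in hball 𝓜 g o R, ipH 𝓜 g (ddc w) (ddc w) x ∂(hvol 𝓜 g)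
      ≤ (8 * M₁ ^ 2 + 12 * C₀ * (4 * (M₀ ^ 2 * C₀) + 2 * (M₀ ^ 2 + M₁ ^ 2)))
        * Vb 𝓜 g o (7 * R) := by nlinarith
  refine le_trans s10 ?_
  have hk : 0 ≤ 8 * M₁ ^ 2 + 12 * C₀ * (4 * (M₀ ^ 2 * C₀) + 2 * (M₀ ^ 2 + M₁ ^ 2)) := by positivity
  calc _ ≤ (8 * M₁ ^ 2 + 12 * C₀ * (4 * (M₀ ^ 2 * C₀) + 2 * (M₀ ^ 2 + M₁ ^ 2)))
        * (C * 7 ^ (2 * n) * R ^ (2 * n)) := mul_le_mul_of_nonneg_left hW hk
    _ = _ := by ring

end Claimed.Agent.R316
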