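import Claimed.Agent.R316.Base.NiTam.Point

/-!
# Row 316, `BP-G10`, leaf `G10-4`: Hamilton's trick for the Hodge heat flow

Statements by helper268 (frozen; prefix for auxiliary lemmas: `nth_`).

`nt_no_touching`.  `E_t = B_t + θ_t g`.  Let `(t₀, Φ, z, v)` be a first touching point, `x = Φ z`.
1. normal coordinates `Ψ` at `x` (`exists_normal_coords`, `Ψ 0 = x`); `J = jac (invFunOn Ψ W ∘ Φ) z` is invertible (`CMfd.det_jac_trans_ne_zero`), `invFunOn Ψ W (Φ z) = 0`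
   (`IsParam.invFunOn_eq_iff` / `CMfd.trans_eq`), `E_{t₀} Φ z = Jᴴ (E_{t₀} Ψ 0) J` (`IsHForm.compat`), so `v' = J v ≠ 0` and `qf (E_{t₀} Ψ 0) v' = 0` (`qf_conjTranspose_mul_mul`-type lemma of `CW/MatAlg`).
2. `touching_calculus` (CM/MaxP) in `Ψ` at `0` with `a := qf (dd tr B_{t₀} Ψ 0) v' + θt t₀ x * qf 1 v'`
   (time derivative: `hB.flow`, `hθt`, `g Ψ 0 = 1`; `qf` is a finite real-linear combination of the entries): `a ≤ 0`, `levi (…) 0` is positive semidefinite, so the sum of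
   the real parts of its diagonal is `≥ 0`.
3. `nt_master` with `θ := θ t₀`: `a - ∑_p levi_pp = curvOp g Ψ 0 v' (E_{t₀} Ψ 0) + (θt - Δθ) qf 1 v' > 0` (`curvOp_nonneg`, `E_{t₀} Ψ 0 ≥ 0`, `qf 1 v' = ∑ ‖v'_j‖² > 0`).  Contradiction.

`nt_hamilton`.  Fix `o` (`S.conn.nonempty`), `ρ` from `S.good o _ 1`: `|ρ - r²| ≤ 1`, `dd ρ ≤ 2 g` (so `Δρ ≤ 2n`: `leF.tr_le`, `tr_smulF`, `tr_self`).
For `ε > 0` put `θ_t = ε (ρ + 2 + (2n+1) t)`: `θ ≥ ε`, `∂_t θ - Δθ ≥ ε > 0`.  `tensor_maxP` with `A := 0`, `B := E`: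
`E_0 ≥ ε g > 0`; outside the compact set `hcball o √(Λ/ε + 1)` (`S.proper`): `θ > Λ`, `E_t ≥ (θ - Λ) g > 0`; no touching by `nt_no_touching`.
Hence `qf (B_t Φ z) v + ε (ρ + 2 + (2n+1)t) qf (g Φ z) v > 0` for all `ε > 0`; let `ε → 0` (`le_of_forall_pos_lt_add`-type argument); `leF_iff_qf`.
-/

set_option autoImplicit false
set_option linter.unusedSectionVars false
set_option linter.unusedVariables false
open scoped ContDiff ComplexOrder Topology ComplexConjugate Matrix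
open MeasureTheory

namespace Claimed.Agent.R316

variable {V : Type} [NormedAddCommGroup V] [NormedSpace ℝ V] [FiniteDimensional ℝ V]
  [MeasurableSpace V] [BorelSpace V]
variable {n : ℕ}
variable {𝓜 : CMfd V (Fin n)} {g : HFam V (Fin n)}

theorem nth_hasDeriv_qf {I : Set ℝ} {M : ℝ → Matrix (Fin n) (Fin n) ℂ}
    {M' : Matrix (Fin n) (Fin n) ℂ} {t : ℝ}
    (h : ∀ j k, HasDerivWithinAt (fun s => M s j k) (M' j k) I t) (v : Fin n → ℂ) :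
    HasDerivWithinAt (fun s => qf (M s) v) (qf M' v) I t := by
  have h1 : HasDerivWithinAt (fun s => ∑ j, ∑ k, conj (v j) * M s j k * v k)
      (∑ j, ∑ k, conj (v j) * M' j k * v k) I t :=
    HasDerivWithinAt.fun_sum fun j _ => HasDerivWithinAt.fun_sum fun k _ =>
      ((h j k).const_mul _).mul_const _
  have h2 := Complex.reCLM.hasFDerivAt.comp_hasDerivWithinAt t h1
  simp only [qf_eq_sum]
  exact h2

theorem nth_limit {b c : ℝ} (h : ∀ ε : ℝ, 0 < ε → 0 ≤ b + ε * c) : 0 ≤ b := by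
  by_contra hb
  push Not at hb
  have h1 : 0 < |c| + 1 := by positivity
  have h2 : 0 < -b / (2 * (|c| + 1)) := div_pos (by linarith) (by positivity)
  have h3 := h _ h2
  have h4 : -b / (2 * (|c| + 1)) * c ≤ -b / (2 * (|c| + 1)) * (|c| + 1) :=
    mul_le_mul_of_nonneg_left (by linarith [le_abs_self c]) h2.le
  have h5 : -b / (2 * (|c| + 1)) * (|c| + 1) = -b / 2 := by field_simp
  linarith

/-- no first touching point for `B + θ g` if `∂_t θ - Δθ > 0`. -/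
theorem nt_no_touching (hg : IsKahler 𝓜 g) (hb : BisecNonneg 𝓜 g) {T : ℝ} (hT : 0 < T)
    {B : ℝ → HFam V (Fin n)} (hB : IsHodgeFlow 𝓜 g T B) {θ θt : ℝ → V → ℝ}
    (hθ : 𝓜.SmoothST (Set.Icc 0 T) θ)
    (hθt : ∀ t ∈ Set.Icc (0 : ℝ) T, ∀ x ∈ 𝓜.carrier,
      HasDerivWithinAt (fun s => θ s x) (θt t x) (Set.Icc 0 T) t)
    (hsup : ∀ t ∈ Set.Ioc (0 : ℝ) T, ∀ x ∈ 𝓜.carrier, lap 𝓜 g (θ t) x < θt t x)
    {t₀ : ℝ} (ht₀ : t₀ ∈ Set.Ioc (0 : ℝ) T)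
    (hle : ∀ t ∈ Set.Icc (0 : ℝ) t₀, leF 𝓜 (fun _ _ => 0) (fun Φ z => B t Φ z + smulF (θ t) g Φ z))
    {Φ : CE (Fin n) → V} {U : Set (CE (Fin n))} (hΦ : 𝓜.IsHol Φ U) {z : CE (Fin n)} (hz : z ∈ U)
    {v : Fin n → ℂ} (hv : v ≠ 0) (h0 : qf (B t₀ Φ z + smulF (θ t₀) g Φ z) v = 0) : False := by
  have hm : IsMetric 𝓜 g := hg.toIsMetric
  have ht₀' : t₀ ∈ Set.Icc (0 : ℝ) T := ⟨ht₀.1.le, ht₀.2⟩
  have hx : Φ z ∈ 𝓜.carrier := CMfd.mem_carrier hΦ hz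
  obtain ⟨Ψ, W, hΨ, hW0, hΨ0, hN2⟩ := exists_normal_coords hg hx
  have hN : IsNormalAt g Ψ := hN2.toIsNormalAt
  have hθs : 𝓜.Smooth (θ t₀) := hθ.smooth ht₀'
  have hBf : IsHForm 𝓜 (B t₀) := hB.form.form t₀ ht₀'
  have hS : IsHForm 𝓜 (smulF (θ t₀) g) := IsHForm.smulF hθs hm.toIsHForm
  have hE : IsHForm 𝓜 (fun Φ z => B t₀ Φ z + smulF (θ t₀) g Φ z) := hBf.add hS
  have hz' : z ∈ U ∩ Φ ⁻¹' (Ψ '' W) := ⟨hz, ⟨0, hW0, hΨ0⟩⟩
  have hτ : (Function.invFunOn Ψ W ∘ Φ) z = 0 := CMfd.trans_eq hΦ hΨ hW0 hΨ0.symm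
  have hJd : (jac (Function.invFunOn Ψ W ∘ Φ) z).det ≠ 0 := CMfd.det_jac_trans_ne_zero hΦ hΨ hz'
  have hc := hE.compat_trans hΦ hΨ hz'
  rw [hτ] at hc
  set J := jac (Function.invFunOn Ψ W ∘ Φ) z with hJ
  set v' := J *ᵥ v with hv'
  have hv'0 : v' ≠ 0 := fun h => hv (Matrix.eq_zero_of_mulVec_eq_zero hJd h)
  have h0' : qf (B t₀ Ψ 0 + smulF (θ t₀) g Ψ 0) v' = 0 := by
    rw [hv', ← qf_conj, ← hc]
    exact h0
  have hsm : ContDiffAt ℝ 2 (fun y => qf (B t₀ Ψ y + smulF (θ t₀) g Ψ y) v') 0 :=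
    ((contDiffOn_qf (H := fun y => B t₀ Ψ y + smulF (θ t₀) g Ψ y) (v := fun _ => v')
      (fun j k => hE.smooth hΨ j k) (fun j => contDiffOn_const)).contDiffAt
      ((CMfd.isOpen_dom hΨ).mem_nhds hW0)).of_le lv_two_le_infty
  have hd := (hB.flow.add (IsTimeDeriv.smulF hθt (isTimeDeriv_const 𝓜 (Set.Icc 0 T) g)))
    Ψ W hΨ 0 hW0 t₀ ht₀'
  have hder := nth_hasDeriv_qf hd v'
  obtain ⟨ha, -, hl, -⟩ := touching_calculus (T := T) ht₀
    (E := fun t Φ z => B t Φ z + smulF (θ t) g Φ z) hle hΨ hW0 (v := v') h0' hsm hder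
  have hM := nt_master hg hBf (hB.closed t₀ ht₀') hθs hΨ hW0 hN v'
  have hC : 0 ≤ curvOp g Ψ 0 v' (B t₀ Ψ 0 + smulF (θ t₀) g Ψ 0) := by
    refine curvOp_nonneg hb hΨ hW0 v' ?_
    have := hle t₀ ⟨ht₀.1.le, le_rfl⟩ Ψ W hΨ 0 hW0
    simpa only [sub_zero] using this
  have hSg : 0 ≤ ∑ p, (levi (fun y => qf (B t₀ Ψ y + smulF (θ t₀) g Ψ y) v') 0 p p).re :=
    Finset.sum_nonneg fun p _ => posSemidef_diag_re_nonneg hl p
  have hq : 0 < qf (1 : Matrix (Fin n) (Fin n) ℂ) v' := qf_pos Matrix.PosDef.one hv'0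
  have hs := hsup t₀ ht₀ (Ψ 0) (CMfd.mem_carrier hΨ hW0)
  have ha' : qf (ddc (tr 𝓜 g (B t₀)) Ψ 0
      + (smulF (θt t₀) g Ψ 0 + smulF (θ t₀) (fun _ _ => 0) Ψ 0)) v'
      = qf (ddc (tr 𝓜 g (B t₀)) Ψ 0) v' + θt t₀ (Ψ 0) * qf 1 v' := by
    rw [qf_add]
    congr 1
    simp only [smulF, smul_zero, add_zero, hN.one]
    exact qf_smul (A := (1 : Matrix (Fin n) (Fin n) ℂ)) (v := v') _
  rw [ha'] at ha
  nlinarith [mul_pos (sub_pos.2 hs) hq]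

/-- **Hamilton's tensor maximum principle for the Hodge heat flow**: a ONE-SIDED bound suffices. -/
theorem nt_hamilton (S : AnaSetting 𝓜 g) (hb : BisecNonneg 𝓜 g) {T : ℝ} (hT : 0 < T)
    {B : ℝ → HFam V (Fin n)} (hB : IsHodgeFlow 𝓜 g T B) {Λ : ℝ}
    (hlow : ∀ t ∈ Set.Icc (0 : ℝ) T, leF 𝓜 (smulF (fun _ => -Λ) g) (B t))
    (h0 : leF 𝓜 0 (B 0)) : ∀ t ∈ Set.Icc (0 : ℝ) T, leF 𝓜 0 (B t) := by
  have hg := S.kahler
  have hm : IsMetric 𝓜 g := hg.toIsMetric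
  obtain ⟨o, ho⟩ := S.conn.nonempty
  obtain ⟨ρ, hρs, hρd, hρdd, -⟩ := S.good o ho 1 one_pos
  have hlapρ : ∀ x ∈ 𝓜.carrier, lap 𝓜 g ρ x ≤ 2 * n := fun x hx => by
    have h1 := leF.tr_le hm hρdd hx
    rw [tr_smulF g g _ hx, tr_self hm hx, Fintype.card_fin] at h1
    exact h1
  have key : ∀ ε : ℝ, 0 < ε → ∀ t ∈ Set.Icc (0 : ℝ) T, ∀ (Φ : CE (Fin n) → V)
      (U : Set (CE (Fin n))), 𝓜.IsHol Φ U → ∀ z ∈ U,
      (B t Φ z + smulF (fun x => ε * (ρ x + 2 + (2 * n + 1) * t)) g Φ z).PosDef := by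
    intro ε hε
    set θ : ℝ → V → ℝ := fun t x => ε * (ρ x + 2 + (2 * n + 1) * t) with hθdef
    have hθ : 𝓜.SmoothST (Set.Icc 0 T) θ :=
      CMfd.SmoothST.const_mul ε (((CMfd.Smooth.toST hρs).add_const 2).add
        (CMfd.smoothST_time.const_mul (2 * n + 1)))
    have hθt : ∀ t ∈ Set.Icc (0 : ℝ) T, ∀ x ∈ 𝓜.carrier,
        HasDerivWithinAt (fun s => θ s x) ((fun _ _ => ε * (2 * n + 1) : ℝ → V → ℝ) t x)
          (Set.Icc 0 T) t := fun t _ x _ => by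
      have h1 : HasDerivAt (fun s : ℝ => ε * (ρ x + 2 + (2 * n + 1) * s)) (ε * (2 * n + 1)) t := by
        have := (((hasDerivAt_id t).const_mul ((2 : ℝ) * n + 1)).const_add (ρ x + 2)).const_mul ε
        simpa using this
      exact h1.hasDerivWithinAt
    have hlapθ : ∀ t, ∀ x ∈ 𝓜.carrier, lap 𝓜 g (θ t) x = ε * lap 𝓜 g ρ x := fun t x hx => by
      have e : θ t = fun y => ε * (ρ y + (2 + (2 * n + 1) * t)) := by
        funext y; simp only [hθdef]; ring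
      rw [e, lap_const_mul g ε ((hρs.add_const _).c2At hx), lap_add_const]
    have hsup : ∀ t ∈ Set.Ioc (0 : ℝ) T, ∀ x ∈ 𝓜.carrier,
        lap 𝓜 g (θ t) x < (fun _ _ => ε * (2 * n + 1) : ℝ → V → ℝ) t x := fun t _ x hx => by
      rw [hlapθ t x hx]
      have := hlapρ x hx
      show ε * lap 𝓜 g ρ x < ε * (2 * n + 1)
      nlinarith
    have hθlow : ∀ t ∈ Set.Icc (0 : ℝ) T, ∀ x ∈ 𝓜.carrier,
        ε * (hdist 𝓜 g o x ^ 2 + 1) ≤ θ t x := fun t ht x hx => by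
      have h1 := (abs_le.1 (hρd x hx)).1
      have h2 : 0 ≤ (2 * (n : ℝ) + 1) * t := mul_nonneg (by positivity) ht.1
      exact mul_le_mul_of_nonneg_left (by linarith) hε.le
    have hEST : IsHFormST 𝓜 (Set.Icc 0 T) (fun t Φ z => B t Φ z + smulF (θ t) g Φ z) :=
      hB.form.add (IsHFormST.smulF hθ (isHFormST_const hm.toIsHForm _))
    have hpos : ∀ t ∈ Set.Icc (0 : ℝ) T, ∀ c : ℝ, leF 𝓜 (smulF (fun _ => -c) g) (B t) →
        ∀ (Φ : CE (Fin n) → V) (U : Set (CE (Fin n))), 𝓜.IsHol Φ U → ∀ z ∈ U, c < θ t (Φ z) →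
        (B t Φ z + smulF (θ t) g Φ z).PosDef := by
      intro t ht c hc Φ U hΦ z hz hcz
      rw [posDef_iff_qf ((hEST.form t ht).herm hΦ z hz)]
      intro v hv
      have h1 := qf_mono (hc Φ U hΦ z hz) v
      have h2 : 0 < qf (g Φ z) v := qf_pos (hm.posDef hΦ z hz) hv
      rw [qf_add]
      simp only [smulF] at h1 ⊢
      rw [qf_smul] at h1 ⊢
      nlinarith [mul_pos (sub_pos.2 hcz) h2]
    have := tensor_maxP hT (A := fun _ _ _ => 0) (B := fun t Φ z => B t Φ z + smulF (θ t) g Φ z)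
      (fun _ _ => isHForm_zero) hEST.form (fun _ _ _ _ _ => continuousOn_const)
      (fun Φ U hΦ j k => (hEST.smooth Φ U hΦ j k).continuousOn) ?_ ?_ ?_
    · intro t ht Φ U hΦ z hz
      simpa only [sub_zero] using this t ht Φ U hΦ z hz
    · intro Φ U hΦ z hz
      rw [sub_zero]
      refine hpos 0 ⟨le_rfl, hT.le⟩ 0 ?_ Φ U hΦ z hz ?_
      · intro Φ U hΦ z hz
        have := h0 Φ U hΦ z hz
        simpa [smulF] using this
      · have h1 := hθlow 0 ⟨le_rfl, hT.le⟩ (Φ z) (CMfd.mem_carrier hΦ hz)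
        have h2 : 0 < ε * (hdist 𝓜 g o (Φ z) ^ 2 + 1) := by positivity
        linarith
    · refine ⟨hcball 𝓜 g o (Real.sqrt (|Λ| / ε)), S.proper o ho _, fun y hy => hy.1, ?_⟩
      intro t ht Φ U hΦ z hz hK
      rw [sub_zero]
      refine hpos t ht Λ (hlow t ht) Φ U hΦ z hz ?_
      have hx := CMfd.mem_carrier hΦ hz
      have h1 : Real.sqrt (|Λ| / ε) < hdist 𝓜 g o (Φ z) := by
        by_contra h
        exact hK ⟨hx, not_lt.1 h⟩
      have h2 : |Λ| / ε < hdist 𝓜 g o (Φ z) ^ 2 :=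
        (Real.sqrt_lt' (lt_of_le_of_lt (Real.sqrt_nonneg _) h1)).1 h1
      have h3 : |Λ| < ε * hdist 𝓜 g o (Φ z) ^ 2 := by rwa [div_lt_iff₀' hε] at h2
      have h4 := hθlow t ht _ hx
      have h5 := le_abs_self Λ
      nlinarith
    · intro t₀ ht₀ hle Φ U hΦ z hz v hv h
      rw [sub_zero] at h
      exact nt_no_touching hg hb hT hB hθ hθt hsup ht₀ hle hΦ hz hv h
  intro t ht Φ U hΦ z hz
  show (B t Φ z - 0).PosSemidef
  rw [sub_zero, posSemidef_iff_qf ((hB.form.form t ht).herm hΦ z hz)]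
  intro v
  refine nth_limit (c := (ρ (Φ z) + 2 + (2 * n + 1) * t) * qf (g Φ z) v) fun ε hε => ?_
  have h1 := qf_nonneg (key ε hε t ht Φ U hΦ z hz).posSemidef v
  rw [qf_add] at h1
  simp only [smulF] at h1
  rw [qf_smul] at h1
  linarith

end Claimed.Agent.R316
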