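import Claimed.Agent.R316.Base.NiTam.NormPt
import Claimed.Agent.R316.Base.NiTam.Integ

/-!
# Row 316, `BP-G10`, leaf `G10-5`: `√(|B|²+δ)` is a subsolution; Karp-Li ⟹ `|B_t|² ≤ sup |B_0|²`

Statements by helper268 (frozen; prefix for auxiliary lemmas: `ntm_`).

* `nt_hasDerivWithinAt_ipH`: `ipH 𝓜 g A A x` IS (by `rfl`) `((G⁻¹ * A * G⁻¹ * A).trace).re` in the chosen parametrisation `(𝓜.pΦ x, 𝓜.co x)`, `G` constant in time:
  `hasDerivWithinAt_matMul`, `hasDerivWithinAt_matTrace` (CW/MatFun), cyclicity of the trace.  No invariance needed.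
* `nt_isHeatSub_sqrt`: `N_t = ipH g B_t B_t` is `SmoothST` (`smoothST_ipH`, `isMetricST_const`), `N ≥ 0` (`ipH_self_nonneg`); `ψ = √(N+δ)` (`SmoothST.comp_of_mem` with `Real.sqrt` on `Ioi 0`, or `rpow_const`).
  `∂_t ψ = ∂_t N/(2ψ)` (`HasDerivWithinAt.sqrt`), `∂_t N = 2 ipH g B (dd tr B)`; `Δψ = ΔN/(2ψ) - gradSq N/(4 (N+δ) ψ)` (`lap_sqrt`, `lap_add_const`, `gradSq_add_const`).
  With `D` from `nt_norm_ineq`: `∂_tψ - Δψ ≤ -D/ψ + N D/((N+δ)ψ) ≤ 0`.  (restrict `HasDerivWithinAt` from `Icc 0 T` to `Ioc 0 T` by `.mono`.)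
* `nt_norm_le`: `Λ ≥ 0`.  `u = √(N+1) - √(Λ+1)`: subsolution, continuous on `[0,T] × M` (`CMfd.SmoothST.continuousOn`), `u(0) ≤ 0`,
  `(max u 0)² ≤ N` (`√(N+1) ≤ √N + 1 ≤ √N + √(Λ+1)`), so the weighted integrability follows from `hint` (`Integrable.mono'`, `nt_aestronglyMeasurable_st`,
  a.e. on the restricted product measure the point lies in `Icc 0 T ×ˢ carrier`).  `KL` gives `u ≤ 0`, i.e. `N ≤ Λ`.
-/

set_option autoImplicit false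
set_option linter.unusedSectionVars false
set_option linter.unusedVariables false
open scoped ContDiff ComplexOrder Topology
open MeasureTheory

namespace Claimed.Agent.R316

variable {V : Type} [NormedAddCommGroup V] [NormedSpace ℝ V] [FiniteDimensional ℝ V]
  [MeasurableSpace V] [BorelSpace V]
variable {n : ℕ}
variable {𝓜 : CMfd V (Fin n)} {g : HFam V (Fin n)} {o : V}

/-- `∂_t |B|² = 2 ⟨B, ∂_t B⟩` (fixed metric). -/
theorem nt_hasDerivWithinAt_ipH {I : Set ℝ} {B B' : ℝ → HFam V (Fin n)}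
    (hd : IsTimeDeriv 𝓜 I B B') {t : ℝ} (ht : t ∈ I) {x : V} (hx : x ∈ 𝓜.carrier) :
    HasDerivWithinAt (fun s => ipH 𝓜 g (B s) (B s) x) (2 * ipH 𝓜 g (B t) (B' t) x) I t := by
  have hM := hd (𝓜.pΦ x) _ (CMfd.isHol_pΦ 𝓜 hx) (𝓜.co x) (CMfd.co_mem 𝓜 hx) t ht
  set K : Matrix (Fin n) (Fin n) ℂ := (g (𝓜.pΦ x) (𝓜.co x))⁻¹ with hKdef
  have hK : ∀ j k, HasDerivWithinAt (fun _ : ℝ => K j k)
      ((0 : Matrix (Fin n) (Fin n) ℂ) j k) I t := fun j k => hasDerivWithinAt_const _ _ _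
  have h1 := hasDerivWithinAt_matMul (A := fun _ : ℝ => K) (B := fun s => B s (𝓜.pΦ x) (𝓜.co x))
    hK hM
  have h2 := hasDerivWithinAt_matMul (B := fun _ : ℝ => K) h1 hK
  have h3 := hasDerivWithinAt_matMul h2 hM
  have h4 := hasDerivWithinAt_matTrace h3
  have h5 := Complex.reCLM.hasFDerivAt.comp_hasDerivWithinAt t h4
  have e : 2 * ipH 𝓜 g (B t) (B' t) x = Complex.reCLM
      (((0 * B t (𝓜.pΦ x) (𝓜.co x) + K * B' t (𝓜.pΦ x) (𝓜.co x)) * K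
        + K * B t (𝓜.pΦ x) (𝓜.co x) * 0) * B t (𝓜.pΦ x) (𝓜.co x)
        + K * B t (𝓜.pΦ x) (𝓜.co x) * K * B' t (𝓜.pΦ x) (𝓜.co x)).trace := by
    rw [Matrix.zero_mul, Matrix.mul_zero, zero_add, add_zero, Matrix.trace_add,
      Matrix.mul_assoc (K * B' t (𝓜.pΦ x) (𝓜.co x)), Matrix.trace_mul_comm,
      ← Matrix.mul_assoc, ← two_mul]
    show 2 * (K * B t (𝓜.pΦ x) (𝓜.co x) * K * B' t (𝓜.pΦ x) (𝓜.co x)).trace.re = _
    simp
  rw [e]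
  exact h5

theorem ntm_smoothST_sqrt (hm : IsMetric 𝓜 g) {T : ℝ} {B : ℝ → HFam V (Fin n)}
    (hB : IsHFormST 𝓜 (Set.Icc 0 T) B) {δ : ℝ} (hδ : 0 < δ) (c : ℝ) :
    𝓜.SmoothST (Set.Icc 0 T) (fun t x => Real.sqrt (ipH 𝓜 g (B t) (B t) x + δ) - c) := by
  have hN : 𝓜.SmoothST (Set.Icc 0 T) (fun t => ipH 𝓜 g (B t) (B t)) :=
    smoothST_ipH (isMetricST_const hm _) hB hB
  have hs : ContDiffOn ℝ ∞ Real.sqrt (Set.Ioi 0) := fun y hy =>
    (Real.contDiffAt_sqrt (ne_of_gt hy)).contDiffWithinAt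
  refine (CMfd.SmoothST.comp_of_mem hs (hN.add_const δ) fun t ht x hx => ?_).sub_const c
  have := ipH_self_nonneg hm (hB.form t ht) hx
  exact Set.mem_Ioi.2 (by linarith)

/-- `√(|B|²+δ) - c` is a smooth subsolution of the heat equation. -/
theorem nt_isHeatSub_sqrt (hg : IsKahler 𝓜 g) (hb : BisecNonneg 𝓜 g) {T : ℝ} (hT : 0 < T)
    {B : ℝ → HFam V (Fin n)} (hB : IsHodgeFlow 𝓜 g T B) {δ : ℝ} (hδ : 0 < δ) (c : ℝ) :
    IsHeatSub 𝓜 g (Set.Ioc 0 T) (fun t x => Real.sqrt (ipH 𝓜 g (B t) (B t) x + δ) - c) := by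
  have hm : IsMetric 𝓜 g := hg.toIsMetric
  refine ⟨(ntm_smoothST_sqrt hm hB.form hδ c).mono Set.Ioc_subset_Icc_self, ?_⟩
  intro t ht x hx
  have ht' : t ∈ Set.Icc (0 : ℝ) T := Set.Ioc_subset_Icc_self ht
  have hBf := hB.form.form t ht'
  have hN0 := ipH_self_nonneg hm hBf hx
  have hNs : 𝓜.Smooth (ipH 𝓜 g (B t) (B t)) := smooth_ipH hm hBf hBf
  obtain ⟨D, hD0, hD1, hD2⟩ := nt_norm_ineq hg hb hBf (hB.closed t ht') hx
  have hmpos : 0 < ipH 𝓜 g (B t) (B t) x + δ := by linarith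
  have hψ : 0 < Real.sqrt (ipH 𝓜 g (B t) (B t) x + δ) := Real.sqrt_pos.2 hmpos
  have hd := (((nt_hasDerivWithinAt_ipH (g := g) hB.flow ht' hx).mono
    Set.Ioc_subset_Icc_self).add_const δ).sqrt (ne_of_gt hmpos)
  refine ⟨_, hd.sub_const c, ?_⟩
  have hl : lap 𝓜 g (fun y => Real.sqrt (ipH 𝓜 g (B t) (B t) y + δ) - c) x
      = lap 𝓜 g (ipH 𝓜 g (B t) (B t)) x / (2 * Real.sqrt (ipH 𝓜 g (B t) (B t) x + δ))
        - gradSq 𝓜 g (ipH 𝓜 g (B t) (B t)) x / (4 * (ipH 𝓜 g (B t) (B t) x + δ)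
          * Real.sqrt (ipH 𝓜 g (B t) (B t) x + δ)) := by
    simp only [sub_eq_add_neg _ c]
    rw [lap_add_const, lap_sqrt g hx ((hNs.add_const δ).c2At hx) hmpos, lap_add_const,
      gradSq_add_const]
  rw [hl]
  set N := ipH 𝓜 g (B t) (B t) x
  set ψ := Real.sqrt (N + δ)
  set N' := 2 * ipH 𝓜 g (B t) (ddc (tr 𝓜 g (B t))) x
  set L := lap 𝓜 g (ipH 𝓜 g (B t) (B t)) x
  set G := gradSq 𝓜 g (ipH 𝓜 g (B t) (B t)) x
  have h1 : G / (4 * (N + δ) * ψ) ≤ D / ψ := by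
    rw [div_le_div_iff₀ (by positivity) hψ]
    have : G ≤ 4 * (N + δ) * D := by nlinarith
    nlinarith [mul_le_mul_of_nonneg_right this hψ.le]
  have h2 : N' / (2 * ψ) - L / (2 * ψ) ≤ -D / ψ := by
    rw [← sub_div, div_le_div_iff₀ (by positivity) hψ]
    nlinarith [mul_le_mul_of_nonneg_right hD1 hψ.le]
  have h3 : -D / ψ = -(D / ψ) := neg_div _ _
  linarith

theorem ntm_ae_mem_st (hm : IsMetric 𝓜 g) (T : ℝ) :
    ∀ᵐ p ∂((volume.prod (hvol 𝓜 g)).restrict (Set.Icc (0 : ℝ) T ×ˢ Set.univ)),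
      p ∈ Set.Icc (0 : ℝ) T ×ˢ 𝓜.carrier := by
  have : ProperSpace V := FiniteDimensional.proper_real V
  have := sigmaFinite_hvol hm
  have h1 : ∀ᵐ p ∂((volume : Measure ℝ).prod (hvol 𝓜 g)), p.2 ∈ 𝓜.carrier :=
    Measure.quasiMeasurePreserving_snd.ae (ae_mem_carrier 𝓜 g)
  filter_upwards [ae_restrict_of_ae h1,
    ae_restrict_mem (measurableSet_Icc.prod MeasurableSet.univ)] with p hp hp2
  exact ⟨hp2.1, hp⟩

/-- **the norm of a Hodge flow in the Karp-Li class does not increase.** -/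
theorem nt_norm_le (S : AnaSetting 𝓜 g) (hb : BisecNonneg 𝓜 g) (KL : KarpLiP 𝓜 g)
    (ho : o ∈ 𝓜.carrier) {T : ℝ} (hT : 0 < T) {B : ℝ → HFam V (Fin n)} (hB : IsHodgeFlow 𝓜 g T B)
    {Λ : ℝ} (hΛ : ∀ x ∈ 𝓜.carrier, ipH 𝓜 g (B 0) (B 0) x ≤ Λ)
    (hint : ∃ c : ℝ, IntegrableOn
      (fun p : ℝ × V => ipH 𝓜 g (B p.1) (B p.1) p.2 * Real.exp (-(c * hdist 𝓜 g o p.2 ^ 2)))
      (Set.Icc 0 T ×ˢ Set.univ) (volume.prod (hvol 𝓜 g))) :
    ∀ t ∈ Set.Icc (0 : ℝ) T, ∀ x ∈ 𝓜.carrier, ipH 𝓜 g (B t) (B t) x ≤ Λ := by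
  have hg := S.kahler
  have hm : IsMetric 𝓜 g := hg.toIsMetric
  have h0T : (0 : ℝ) ∈ Set.Icc (0 : ℝ) T := ⟨le_rfl, hT.le⟩
  have hΛ0 : 0 ≤ Λ := le_trans (ipH_self_nonneg hm (hB.form.form 0 h0T) ho) (hΛ o ho)
  have hsm := ntm_smoothST_sqrt hm hB.form one_pos (Real.sqrt (Λ + 1))
  have hcont := hsm.continuousOn
  obtain ⟨c, hc⟩ := hint
  have hKL := KL o ho T hT _ (nt_isHeatSub_sqrt hg hb hT hB one_pos (Real.sqrt (Λ + 1))) hcont
    ⟨c, ?_⟩ ?_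
  · intro t ht x hx
    have h1 := hKL t ht x hx
    have h2 : Real.sqrt (ipH 𝓜 g (B t) (B t) x + 1) ≤ Real.sqrt (Λ + 1) := by linarith
    have h3 := (Real.sqrt_le_sqrt_iff (by linarith)).1 h2
    linarith
  · have hr : ContinuousOn (fun p : ℝ × V => hdist 𝓜 g o p.2) (Set.Icc 0 T ×ˢ 𝓜.carrier) :=
      (continuousOn_hdist_right hm S.conn ho).comp continuousOn_snd fun p hp => hp.2
    have hmeas := nt_aestronglyMeasurable_st hm (T := T)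
      (F := fun p : ℝ × V => (max (Real.sqrt (ipH 𝓜 g (B p.1) (B p.1) p.2 + 1)
        - Real.sqrt (Λ + 1)) 0) ^ 2 * Real.exp (-(c * hdist 𝓜 g o p.2 ^ 2)))
      (((ContinuousOn.sup hcont continuousOn_const).pow 2).mul
        (Real.continuous_exp.comp_continuousOn ((continuousOn_const.mul (hr.pow 2)).neg)))
    refine Integrable.mono' hc hmeas ?_
    filter_upwards [ntm_ae_mem_st hm T] with p hp
    have hN0 := ipH_self_nonneg hm (hB.form.form p.1 hp.1) hp.2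
    set N := ipH 𝓜 g (B p.1) (B p.1) p.2
    have he : 0 < Real.exp (-(c * hdist 𝓜 g o p.2 ^ 2)) := Real.exp_pos _
    rw [Real.norm_of_nonneg (by positivity)]
    refine mul_le_mul_of_nonneg_right ?_ he.le
    have h1 : Real.sqrt (N + 1) ≤ Real.sqrt N + 1 := by
      rw [Real.sqrt_le_left (by positivity)]
      nlinarith [Real.sq_sqrt hN0, Real.sqrt_nonneg N]
    have h2 : 1 ≤ Real.sqrt (Λ + 1) := by
      rw [Real.le_sqrt' one_pos]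
      linarith
    have h3 : max (Real.sqrt (N + 1) - Real.sqrt (Λ + 1)) 0 ≤ Real.sqrt N :=
      max_le (by linarith) (Real.sqrt_nonneg _)
    calc (max (Real.sqrt (N + 1) - Real.sqrt (Λ + 1)) 0) ^ 2 ≤ Real.sqrt N ^ 2 :=
          pow_le_pow_left₀ (le_max_right _ _) h3 2
      _ = N := Real.sq_sqrt hN0
  · intro x hx
    have h1 := hΛ x hx
    have h2 : Real.sqrt (ipH 𝓜 g (B 0) (B 0) x + 1) ≤ Real.sqrt (Λ + 1) :=
      Real.sqrt_le_sqrt (by linarith)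
    linarith

end Claimed.Agent.R316
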