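import Claimed.Agent.R316.Base.NiTam.PInt
import Claimed.Agent.R316.Pack018

/-!
# Row 316, `BP-G10`, leaf `G10-10`: kernel free facts on solutions smooth up to `t = 0`

Statements by helper268 (frozen; prefix for auxiliary lemmas: `nts_`).  `smoothST_Pot`, `lap_Pot` of `Base/Heat/Api.lean` (Part C) follow from `nt_primitive` + the fields `init`, `sol`.

* `nt_isHeatSol_of_Ioc`: at `t = 0` the derivative within `Icc 0 T` exists: `d(t,x) = derivWithin …` (`CMfd.SmoothST.hasDerivWithinAt`); `t ↦ d(t,x)` and `t ↦ lap 𝓜 g (u t) x` are continuous on `Icc 0 T`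
  (`CMfd.SmoothST.derivWithin`, `smoothST_lap` with `isMetricST_const`, `CMfd.SmoothST.continuousOn`) and agree on `Ioc 0 T` (uniqueness of the derivative, `IsTimeDom.uniqueDiffWithinAt`), hence at `0`
  (`0 ∈ closure (Ioc 0 T)`; `Set.EqOn.closure`-type argument / `tendsto_nhds_unique`).
* `nt_abs_lap_le`: barrier `Q(t,x) = ρ(x) + 1 + 2 n t`, `ρ` from `S.good o _ 1` (`Q ≥ 0`, proper by `S.proper`, `∂_t Q - ΔQ = 2n - Δρ ≥ 0`), `maxP_barrier` (CM/MaxP) with `C = 0`.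
  (i) `w(s,x) = ± (u(s,x) - u(0,x)) - s L` on `[0,T]`: `∂_s w - Δw = ± Δu_0 - L ≤ 0`, `w(0) = 0`, bounded: `|u_s - u_0| ≤ s L`.
  (ii) for `0 < s < T`: `w(t,x) = ± (u(t+s,x) - u(t,x)) - s L` on `[0,T-s]` (`SmoothST.comp_time`): solution, `w(0) ≤ 0` by (i): `|u_{t+s} - u_t| ≤ s L`.
  (iii) `Δu_t(x) = ∂_t u` is a limit of difference quotients `(u_{t+s} - u_t)/s` (`t < T`; `HasDerivWithinAt` ⟹ `tendsto slope`), so `|Δu_t| ≤ L`; `t = T`: continuity in `t`, or quotients `(u_T - u_{T-s})/s`.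
* `nt_primitive`: in a parametrisation `F(s,z) = u s (Φ z)`: `nt_contDiffOn_primitive`, `nt_hasDerivWithinAt_primitive`; `lap`: `lap_eq` (smooth slice) `= Re tr (G⁻¹ levi W_b)`, `nt_levi_primitive`, pull the finite sum and `Re` through the integral
  (`intervalIntegral.integral_finset_sum`, `intervalIntegral.integral_const_mul`, `Complex.reCLM.intervalIntegral_comp_comm`): `ΔW_b(x) = ∫₀ᵇ Δu_s(x) ds = ∫₀ᵇ ∂_s u ds = u_b - u_0`
  (`intervalIntegral.integral_eq_sub_of_hasDeriv_right` / `integral_eq_sub_of_hasDerivAt_of_le` with one-sided derivatives on `Icc`).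
-/

set_option autoImplicit false
set_option linter.unusedSectionVars false
set_option linter.unusedVariables false
open scoped ContDiff ComplexOrder Topology
open MeasureTheory

namespace Claimed.Agent.R316

variable {V : Type} [NormedAddCommGroup V] [NormedSpace ℝ V] [FiniteDimensional ℝ V]
  [MeasurableSpace V] [BorelSpace V]
variable {n : ℕ}
variable {𝓜 : CMfd V (Fin n)} {g : HFam V (Fin n)}

theorem nts_continuousOn_time {I : Set ℝ} {w : ℝ → V → ℝ} (hw : 𝓜.SmoothST I w) {x : V}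
    (hx : x ∈ 𝓜.carrier) : ContinuousOn (fun s => w s x) I :=
  hw.continuousOn.comp (f := fun s : ℝ => ((s, x) : ℝ × V))
    (continuous_id.prodMk continuous_const).continuousOn (fun s hs => ⟨hs, hx⟩)

/-- a function smooth on `[0,T] × M` which solves the heat equation for `t > 0` solves it at `t = 0`. -/
theorem nt_isHeatSol_of_Ioc (hg : IsMetric 𝓜 g) {T : ℝ} (hT : 0 < T) {u : ℝ → V → ℝ}
    (hu : 𝓜.SmoothST (Set.Icc 0 T) u)
    (hsol : ∀ t ∈ Set.Ioc (0 : ℝ) T, ∀ x ∈ 𝓜.carrier,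
      HasDerivWithinAt (fun s => u s x) (lap 𝓜 g (u t) x) (Set.Icc 0 T) t) :
    IsHeatSol 𝓜 g (Set.Icc 0 T) u := by
  have hI := isTimeDom_Icc hT
  refine ⟨hu, fun t ht x hx => ?_⟩
  rcases eq_or_lt_of_le ht.1 with h0 | h0
  · subst h0
    have hd := hu.hasDerivWithinAt ht hx
    have hc1 := nts_continuousOn_time (hu.derivWithin hI) hx
    have hc2 := nts_continuousOn_time (smoothST_lap hI (isMetricST_const hg _) hu) hx
    have heq : ∀ s ∈ Set.Ioc (0 : ℝ) T,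
        derivWithin (fun s' => u s' x) (Set.Icc 0 T) s = lap 𝓜 g (u s) x := fun s hs =>
      (hsol s hs x hx).derivWithin (hI.uniqueDiffWithinAt (Set.Ioc_subset_Icc_self hs))
    have key : derivWithin (fun s' => u s' x) (Set.Icc 0 T) 0 = lap 𝓜 g (u 0) x := by
      have hne : (𝓝[Set.Ioc 0 T] (0 : ℝ)).NeBot := by
        rw [← mem_closure_iff_nhdsWithin_neBot, closure_Ioc hT.ne]
        exact ⟨le_rfl, hT.le⟩
      have t1 := (hc1 0 ht).mono_left (nhdsWithin_mono _ Set.Ioc_subset_Icc_self)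
      have t2 := (hc2 0 ht).mono_left (nhdsWithin_mono _ Set.Ioc_subset_Icc_self)
      exact tendsto_nhds_unique (t1.congr' (eventually_nhdsWithin_of_forall heq)) t2
    rw [← key]
    exact hd
  · exact hsol t ⟨h0, ht.2⟩ x hx

/-- weak maximum principle for bounded subsolutions (barrier from `GoodDist`). -/
theorem nts_maxP (S : AnaSetting 𝓜 g) {T B : ℝ} (hT : 0 < T) {w wt : ℝ → V → ℝ}
    (hw : 𝓜.SmoothST (Set.Icc 0 T) w)
    (hder : ∀ t ∈ Set.Icc (0 : ℝ) T, ∀ x ∈ 𝓜.carrier,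
      HasDerivWithinAt (fun s => w s x) (wt t x) (Set.Icc 0 T) t)
    (hB : ∀ t ∈ Set.Icc (0 : ℝ) T, ∀ x ∈ 𝓜.carrier, w t x ≤ B)
    (h0 : ∀ x ∈ 𝓜.carrier, w 0 x ≤ 0)
    (hsub : ∀ t ∈ Set.Ioc (0 : ℝ) T, ∀ x ∈ 𝓜.carrier, wt t x - lap 𝓜 g (w t) x ≤ 0) :
    ∀ t ∈ Set.Icc (0 : ℝ) T, ∀ x ∈ 𝓜.carrier, w t x ≤ 0 := by
  have hm : IsMetric 𝓜 g := S.kahler.toIsMetric
  obtain ⟨o, ho⟩ := S.conn.nonempty
  obtain ⟨ρ, hρs, hρd, hρdd, -⟩ := S.good o ho 1 one_pos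
  have hlapρ : ∀ x ∈ 𝓜.carrier, lap 𝓜 g ρ x ≤ 2 * n := fun x hx => by
    have h1 := leF.tr_le hm hρdd hx
    rw [tr_smulF g g _ hx, tr_self hm hx, Fintype.card_fin] at h1
    exact h1
  have hQ : 𝓜.SmoothST (Set.Icc 0 T) (fun t x => ρ x + 1 + 2 * n * t) :=
    ((CMfd.Smooth.toST hρs).add_const 1).add (CMfd.smoothST_time.const_mul (2 * n))
  refine maxP_barrier (C := 0) (B := B) hT (h := fun _ => g) (fun _ _ => hm) (wt := wt)
    (Qt := fun _ _ => 2 * n) hw hQ (fun t ht x hx => ⟨hder t ht x hx, ?_⟩) hB ?_ ?_ ?_ h0 ?_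
  · have h1 : HasDerivAt (fun s : ℝ => ρ x + 1 + 2 * n * s) (2 * n) t := by
      have := ((hasDerivAt_id t).const_mul ((2 : ℝ) * n)).const_add (ρ x + 1)
      simpa using this
    exact h1.hasDerivWithinAt
  · intro t ht x hx
    have h1 := (abs_le.1 (hρd x hx)).1
    have h2 : 0 ≤ 2 * (n : ℝ) * t := mul_nonneg (by positivity) ht.1
    nlinarith [sq_nonneg (hdist 𝓜 g o x)]
  · intro a
    refine ⟨hcball 𝓜 g o (Real.sqrt (|a| + 1)), S.proper o ho _, hcball_subset_carrier _ _ _ _, ?_⟩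
    intro t ht x hx hQa
    refine ⟨hx, Real.le_sqrt_of_sq_le ?_⟩
    have h1 := (abs_le.1 (hρd x hx)).1
    have h2 : 0 ≤ 2 * (n : ℝ) * t := mul_nonneg (by positivity) ht.1
    have h3 := le_abs_self a
    linarith
  · intro t _ x hx
    have e : (fun y => ρ y + 1 + 2 * n * t) = fun y => ρ y + (1 + 2 * n * t) := by
      funext y; ring
    rw [zero_mul, e, lap_add_const]
    linarith [hlapρ x hx]
  · intro t ht x hx _
    rw [zero_mul]
    exact hsub t ht x hx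

theorem nts_diff_zero_le (S : AnaSetting 𝓜 g) {T : ℝ} (hT : 0 < T) {u : ℝ → V → ℝ}
    (hu : IsHeatSol 𝓜 g (Set.Icc 0 T) u) {M L : ℝ}
    (hM : ∀ t ∈ Set.Icc (0 : ℝ) T, ∀ x ∈ 𝓜.carrier, |u t x| ≤ M)
    (hL : ∀ x ∈ 𝓜.carrier, lap 𝓜 g (u 0) x ≤ L) :
    ∀ s ∈ Set.Icc (0 : ℝ) T, ∀ x ∈ 𝓜.carrier, u s x - u 0 x ≤ s * L := by
  have h0T : (0 : ℝ) ∈ Set.Icc (0 : ℝ) T := ⟨le_rfl, hT.le⟩
  have hu0 : 𝓜.Smooth (u 0) := hu.1.smooth h0T
  have key := nts_maxP S (B := 2 * M + T * |L|) hT (w := fun s x => u s x - u 0 x - s * L)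
    (wt := fun s x => lap 𝓜 g (u s) x - L)
    ((hu.1.sub (CMfd.Smooth.toST hu0)).sub (CMfd.smoothST_time.mul_const L)) ?_ ?_ ?_ ?_
  · intro s hs x hx
    linarith [key s hs x hx]
  · intro t ht x hx
    have h1 := (hu.2 t ht x hx).sub_const (u 0 x)
    have h2 : HasDerivWithinAt (fun s : ℝ => s * L) L (Set.Icc 0 T) t := by
      simpa using ((hasDerivAt_id t).mul_const L).hasDerivWithinAt
    exact h1.sub h2
  · intro t ht x hx
    have h1 := abs_le.1 (hM t ht x hx)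
    have h2 := abs_le.1 (hM 0 h0T x hx)
    have h3 : -(t * L) ≤ T * |L| := by
      have h4 : -(t * L) ≤ t * |L| := by nlinarith [neg_abs_le L, ht.1]
      nlinarith [abs_nonneg L, ht.2]
    show u t x - u 0 x - t * L ≤ _
    linarith
  · intro x hx
    simp
  · intro t ht x hx
    have ht' := Set.Ioc_subset_Icc_self ht
    have hut : 𝓜.Smooth (u t) := hu.1.smooth ht'
    have e : lap 𝓜 g (fun y => u t y - u 0 y - t * L) x
        = lap 𝓜 g (u t) x - lap 𝓜 g (u 0) x := by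
      have : (fun y => u t y - u 0 y - t * L) = fun y => (u t y - u 0 y) + (-(t * L)) := by
        funext y; ring
      rw [this, lap_add_const, lap_sub g (hut.c2At hx) (hu0.c2At hx)]
    show lap 𝓜 g (u t) x - L - lap 𝓜 g (fun y => u t y - u 0 y - t * L) x ≤ 0
    rw [e]
    linarith [hL x hx]

theorem nts_diff_shift_le (S : AnaSetting 𝓜 g) {T : ℝ} (hT : 0 < T) {u : ℝ → V → ℝ}
    (hu : IsHeatSol 𝓜 g (Set.Icc 0 T) u) {M L : ℝ}
    (hM : ∀ t ∈ Set.Icc (0 : ℝ) T, ∀ x ∈ 𝓜.carrier, |u t x| ≤ M)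
    (hL : ∀ x ∈ 𝓜.carrier, lap 𝓜 g (u 0) x ≤ L) {s : ℝ} (hs : s ∈ Set.Ioo (0 : ℝ) T) :
    ∀ t ∈ Set.Icc (0 : ℝ) (T - s), ∀ x ∈ 𝓜.carrier, u (t + s) x - u t x ≤ s * L := by
  have hT' : 0 < T - s := by linarith [hs.2]
  have hmaps : Set.MapsTo (fun t : ℝ => t + s) (Set.Icc 0 (T - s)) (Set.Icc 0 T) :=
    fun t ht => ⟨by linarith [ht.1, hs.1], by linarith [ht.2]⟩
  have hsub : Set.Icc (0 : ℝ) (T - s) ⊆ Set.Icc 0 T :=
    Set.Icc_subset_Icc le_rfl (by linarith [hs.1])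
  have key := nts_maxP S (B := 2 * M + |s * L|) hT'
    (w := fun t x => u (t + s) x - u t x - s * L)
    (wt := fun t x => lap 𝓜 g (u (t + s)) x - lap 𝓜 g (u t) x)
    (((hu.1.comp_time (a := fun t : ℝ => t + s) (contDiff_id.add contDiff_const).contDiffOn
      hmaps).sub (hu.1.mono hsub)).sub_const (s * L)) ?_ ?_ ?_ ?_
  · intro t ht x hx
    linarith [key t ht x hx]
  · intro t ht x hx
    have h1 : HasDerivWithinAt (fun t' => u (t' + s) x) (lap 𝓜 g (u (t + s)) x)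
        (Set.Icc 0 (T - s)) t := by
      have h2 := hu.2 (t + s) (hmaps ht) x hx
      have h3 : HasDerivWithinAt (fun t' : ℝ => t' + s) 1 (Set.Icc 0 (T - s)) t :=
        ((hasDerivAt_id t).add_const s).hasDerivWithinAt
      have := h2.comp t h3 hmaps
      rw [mul_one] at this
      exact this
    exact (h1.sub ((hu.2 t (hsub ht) x hx).mono hsub)).sub_const _
  · intro t ht x hx
    have h1 := abs_le.1 (hM (t + s) (hmaps ht) x hx)
    have h2 := abs_le.1 (hM t (hsub ht) x hx)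
    have h3 := neg_abs_le (s * L)
    show u (t + s) x - u t x - s * L ≤ _
    linarith
  · intro x hx
    have := nts_diff_zero_le S hT hu hM hL s ⟨hs.1.le, hs.2.le⟩ x hx
    show u (0 + s) x - u 0 x - s * L ≤ 0
    rw [zero_add]
    linarith
  · intro t ht x hx
    have ht' := Set.Ioc_subset_Icc_self ht
    have hut : 𝓜.Smooth (u t) := hu.1.smooth (hsub ht')
    have huts : 𝓜.Smooth (u (t + s)) := hu.1.smooth (hmaps ht')
    have e : lap 𝓜 g (fun y => u (t + s) y - u t y - s * L) x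
        = lap 𝓜 g (u (t + s)) x - lap 𝓜 g (u t) x := by
      have : (fun y => u (t + s) y - u t y - s * L)
          = fun y => (u (t + s) y - u t y) + (-(s * L)) := by
        funext y; ring
      rw [this, lap_add_const, lap_sub g (huts.c2At hx) (hut.c2At hx)]
    show lap 𝓜 g (u (t + s)) x - lap 𝓜 g (u t) x
      - lap 𝓜 g (fun y => u (t + s) y - u t y - s * L) x ≤ 0
    rw [e]
    linarith

theorem nts_diff_le (S : AnaSetting 𝓜 g) {T : ℝ} (hT : 0 < T) {u : ℝ → V → ℝ}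
    (hu : IsHeatSol 𝓜 g (Set.Icc 0 T) u) {M L : ℝ}
    (hM : ∀ t ∈ Set.Icc (0 : ℝ) T, ∀ x ∈ 𝓜.carrier, |u t x| ≤ M)
    (hL : ∀ x ∈ 𝓜.carrier, lap 𝓜 g (u 0) x ≤ L) {t t' : ℝ} (ht : 0 ≤ t) (htt : t < t')
    (ht' : t' ≤ T) {x : V} (hx : x ∈ 𝓜.carrier) : u t' x - u t x ≤ (t' - t) * L := by
  rcases eq_or_lt_of_le ht with h0 | h0
  · subst h0
    rw [sub_zero]
    exact nts_diff_zero_le S hT hu hM hL t' ⟨htt.le, ht'⟩ x hx
  · have := nts_diff_shift_le S hT hu hM hL (s := t' - t) ⟨by linarith, by linarith⟩ t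
      ⟨ht, by linarith⟩ x hx
    rwa [add_sub_cancel] at this

theorem nts_isHeatSol_neg {I : Set ℝ} {u : ℝ → V → ℝ} (hu : IsHeatSol 𝓜 g I u) :
    IsHeatSol 𝓜 g I (fun t x => - u t x) := by
  refine ⟨hu.1.neg, fun t ht x hx => ?_⟩
  rw [lap_neg]
  exact (hu.2 t ht x hx).neg

theorem nts_lip (S : AnaSetting 𝓜 g) {T : ℝ} (hT : 0 < T) {u : ℝ → V → ℝ}
    (hu : IsHeatSol 𝓜 g (Set.Icc 0 T) u) {M L : ℝ}
    (hM : ∀ t ∈ Set.Icc (0 : ℝ) T, ∀ x ∈ 𝓜.carrier, |u t x| ≤ M)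
    (hL : ∀ x ∈ 𝓜.carrier, |lap 𝓜 g (u 0) x| ≤ L) {t t' : ℝ} (ht : 0 ≤ t) (htt : t < t')
    (ht' : t' ≤ T) {x : V} (hx : x ∈ 𝓜.carrier) : |u t' x - u t x| ≤ (t' - t) * L := by
  have h1 := nts_diff_le S hT hu hM (fun y hy => (abs_le.1 (hL y hy)).2) ht htt ht' hx
  have h2 := nts_diff_le S hT (nts_isHeatSol_neg hu) (M := M) (L := L)
    (fun s hs y hy => by rw [abs_neg]; exact hM s hs y hy)
    (fun y hy => by rw [lap_neg]; linarith [(abs_le.1 (hL y hy)).1]) ht htt ht' hx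
  rw [abs_le]
  constructor <;> linarith

/-- **bounded solutions: `sup |Δu_t| ≤ sup |Δu_0|`** (maximum principle for time differences). -/
theorem nt_abs_lap_le (S : AnaSetting 𝓜 g) {T : ℝ} (hT : 0 < T) {u : ℝ → V → ℝ}
    (hu : IsHeatSol 𝓜 g (Set.Icc 0 T) u) {M L : ℝ}
    (hM : ∀ t ∈ Set.Icc (0 : ℝ) T, ∀ x ∈ 𝓜.carrier, |u t x| ≤ M)
    (hL : ∀ x ∈ 𝓜.carrier, |lap 𝓜 g (u 0) x| ≤ L) :
    ∀ t ∈ Set.Icc (0 : ℝ) T, ∀ x ∈ 𝓜.carrier, |lap 𝓜 g (u t) x| ≤ L := by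
  intro t ht x hx
  have hd := hu.2 t ht x hx
  rw [hasDerivWithinAt_iff_tendsto_slope] at hd
  have hne : (𝓝[Set.Icc 0 T \ {t}] t).NeBot :=
    accPt_principal_iff_nhdsWithin.1 (uniqueDiffOn_Icc hT t ht).accPt
  refine le_of_tendsto hd.abs (eventually_nhdsWithin_of_forall fun t' ht' => ?_)
  have hne' : t' ≠ t := ht'.2
  rw [slope_def_field, abs_div, div_le_iff₀ (abs_pos.2 (sub_ne_zero.2 hne'))]
  rcases lt_or_gt_of_ne hne' with h | h
  · have := nts_lip S hT hu hM hL ht'.1.1 h ht.2 hx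
    rw [abs_sub_comm, abs_sub_comm t' t, abs_of_pos (sub_pos.2 h)]
    linarith
  · have := nts_lip S hT hu hM hL ht.1 h ht'.1.2 hx
    rw [abs_of_pos (sub_pos.2 h)]
    linarith

/-- **the primitive in time of a solution**: smooth, `∂_b W = u_b`, `ΔW_b = u_b - u_0`. -/
theorem nt_primitive (hg : IsMetric 𝓜 g) {T : ℝ} (hT : 0 < T) {u : ℝ → V → ℝ}
    (hu : IsHeatSol 𝓜 g (Set.Icc 0 T) u) :
    𝓜.SmoothST (Set.Icc 0 T) (fun b x => ∫ s in (0 : ℝ)..b, u s x) ∧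
    (∀ b ∈ Set.Icc (0 : ℝ) T, ∀ x ∈ 𝓜.carrier,
      HasDerivWithinAt (fun b' => ∫ s in (0 : ℝ)..b', u s x) (u b x) (Set.Icc 0 T) b) ∧
    (∀ b ∈ Set.Icc (0 : ℝ) T, ∀ x ∈ 𝓜.carrier,
      lap 𝓜 g (fun x' => ∫ s in (0 : ℝ)..b, u s x') x = u b x - u 0 x) := by
  have hI := isTimeDom_Icc hT
  have h0T : (0 : ℝ) ∈ Set.Icc (0 : ℝ) T := ⟨le_rfl, hT.le⟩
  have hW : 𝓜.SmoothST (Set.Icc 0 T) (fun b x => ∫ s in (0 : ℝ)..b, u s x) := fun Φ U hΦ =>
    nt_contDiffOn_primitive hT (CMfd.isOpen_dom hΦ)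
      (F := fun q : ℝ × CE (Fin n) => u q.1 (Φ q.2)) (hu.1 Φ U hΦ)
  refine ⟨hW, ?_, ?_⟩
  · intro b hb x hx
    obtain ⟨Φ, U, hΦ, z, hz, rfl⟩ := 𝓜.cover x hx
    exact nt_hasDerivWithinAt_primitive hT (F := fun q : ℝ × CE (Fin n) => u q.1 (Φ q.2))
      (hu.1 Φ U hΦ) hb hz
  · intro b hb x hx
    obtain ⟨Φ, U, hΦ, z, hz, rfl⟩ := 𝓜.cover x hx
    have hU := CMfd.isOpen_dom hΦ
    have hF := hu.1 Φ U hΦ
    have hsub : Set.uIcc (0 : ℝ) b ⊆ Set.Icc 0 T := Set.uIcc_subset_Icc h0T hb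
    rw [lap_eq hg (hW.smooth hb) hΦ hz]
    have hlev : ∀ j k, levi ((fun x' => ∫ s in (0 : ℝ)..b, u s x') ∘ Φ) z j k
        = ∫ s in (0 : ℝ)..b, levi (u s ∘ Φ) z j k := fun j k =>
      nt_levi_primitive hT hU (F := fun q : ℝ × CE (Fin n) => u q.1 (Φ q.2)) hF hb hz j k
    have hc : ∀ j k, ContinuousOn (fun s => levi (u s ∘ Φ) z j k) (Set.uIcc 0 b) := fun j k =>
      (ntq_continuousOn_time
        (F := fun q : ℝ × CE (Fin n) => levi (fun y => u q.1 (Φ y)) q.2 j k)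
        (contDiffOn_levi_slice hI hU hF j k).continuousOn hz).mono hsub
    have hci : ∀ i, ContinuousOn (fun s => ∑ j, (g Φ z)⁻¹ i j * levi (u s ∘ Φ) z j i)
        (Set.uIcc 0 b) := fun i =>
      continuousOn_finset_sum _ fun j _ => continuousOn_const.mul (hc j i)
    have e1 : ((g Φ z)⁻¹ * levi ((fun x' => ∫ s in (0 : ℝ)..b, u s x') ∘ Φ) z).trace
        = ∫ s in (0 : ℝ)..b, ((g Φ z)⁻¹ * levi (u s ∘ Φ) z).trace := by
      simp only [Matrix.trace, Matrix.diag_apply, Matrix.mul_apply, hlev]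
      rw [intervalIntegral.integral_finsetSum (fun i _ => (hci i).intervalIntegrable)]
      refine Finset.sum_congr rfl fun i _ => ?_
      rw [intervalIntegral.integral_finsetSum
        (f := fun j s => (g Φ z)⁻¹ i j * levi (u s ∘ Φ) z j i)
        (fun j _ => (continuousOn_const.mul (hc j i)).intervalIntegrable)]
      refine Finset.sum_congr rfl fun j _ => ?_
      rw [intervalIntegral.integral_const_mul]
    have hct : ContinuousOn (fun s => ((g Φ z)⁻¹ * levi (u s ∘ Φ) z).trace) (Set.uIcc 0 b) := by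
      simp only [Matrix.trace, Matrix.diag_apply, Matrix.mul_apply]
      exact continuousOn_finset_sum _ fun i _ => hci i
    have e2 : (∫ s in (0 : ℝ)..b, ((g Φ z)⁻¹ * levi (u s ∘ Φ) z).trace).re
        = ∫ s in (0 : ℝ)..b, lap 𝓜 g (u s) (Φ z) := by
      have := Complex.reCLM.intervalIntegral_comp_comm (μ := volume) hct.intervalIntegrable
      rw [Complex.reCLM_apply] at this
      rw [← this]
      refine intervalIntegral.integral_congr fun s hs => ?_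
      exact (lap_eq hg (hu.1.smooth (hsub hs)) hΦ hz).symm
    rw [e1, e2]
    have hx' := CMfd.mem_carrier hΦ hz
    refine intervalIntegral.integral_eq_sub_of_hasDeriv_right
      ((nts_continuousOn_time hu.1 hx').mono hsub) (fun s hs => ?_)
      ((nts_continuousOn_time (smoothST_lap hI (isMetricST_const hg _) hu.1) hx').mono
        hsub).intervalIntegrable
    rw [min_eq_left hb.1, max_eq_right hb.1] at hs
    have hs' : s ∈ Set.Icc (0 : ℝ) T := ⟨hs.1.le, (hs.2.trans_le hb.2).le⟩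
    exact ((hu.2 s hs' _ hx').hasDerivAt
      (Icc_mem_nhds hs.1 (hs.2.trans_le hb.2))).hasDerivWithinAt

end Claimed.Agent.R316
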