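import Claimed.Agent.R316.Base.NiTam.Point

/-!
# Row 316, `BP-G10`, leaf `G10-3`: the Bochner inequality and the Kato type inequality for `|∂w|²`

Statement by helper268 (frozen; prefix for auxiliary lemmas: `ntb_`).

`bochH 𝓜 g w = Δ e - 2 ⟨∂w, ∂Δw⟩`, `e = gradSq 𝓜 g w`.  Take normal coordinates at `x` (`exists_normal_coords`): `G(0) = 1`, `dG(0) = 0`, `K = G⁻¹`
(`∂K(0) = ∂̄K(0) = 0`, `∂̄_p∂_p K(0) = - ∂̄_p∂_p G(0)`).  Notation `f = w ∘ Φ`, `f_k = ∂_k f`, `f_{\bar j} = ∂̄_j f = conj f_j`.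
* near `0`: `e(Φ y) = ∑_{j,k} f_{\bar j} K(k,j) f_k` (`gradSq_eq`, `dualIP`), `Δw(Φ y) = ∑_{p,q} K(p,q) ∂̄_q∂_p f` (`lap_eq`).
* `∂_p e(0) = ∑_j (f_{\bar j p} f_j + f_{\bar j} f_{j p})`.
* `Δe(x) = ∑_p ∂̄_p∂_p e(0) = ∑_{j,k} (∑_p Rm j k p p) f_{\bar j} f_k + ∑_{p,j} (‖f_{j \bar p}‖² + ‖f_{j p}‖²) + 2 Re ∑_{p,j} f_{\bar j} f_{j p \bar p}`
  (`IsNormalAt.Rm_eq`: `- ∂̄_p∂_p G(k,j)(0) = Rm g Φ 0 j k p p`; partial derivatives commute).
* `⟨∂w,∂Δw⟩(x) = Re ∑_j f_{\bar j} ∂_j(Δw)(0) = Re ∑_{j,p} f_{\bar j} f_{p \bar p j}`.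
* so `bochH = ∑ ‖f_{j \bar p}‖² + ∑ ‖f_{j p}‖² + qf (ricF g Φ 0) ξ`, `ξ_j = f_{\bar j}` (`IsNormalAt.ricF_eq` or `ricF_eq_sum_Rm`), and `qf (ricF …) ξ ≥ 0`.
* `ipH g (dd w)(dd w)(x) = tr (L L) = ∑ ‖L(j,p)‖²`, `L = levi f 0` Hermitian (`ipH_eq`).
* `‖∂_p e‖ ≤ ∑_j (‖f_{\bar j p}‖ + ‖f_{j p}‖) ‖f_j‖`, Cauchy-Schwarz: `gradSq e = ∑_p ‖∂_p e‖² ≤ 2 e ∑_{p,j} (‖f_{\bar j p}‖² + ‖f_{j p}‖²)`.
-/

set_option autoImplicit false
set_option linter.unusedSectionVars false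
set_option linter.unusedVariables false
open scoped ContDiff ComplexOrder Topology ComplexConjugate Matrix
open MeasureTheory

namespace Claimed.Agent.R316

section chart

variable {ι : Type} [Fintype ι] [DecidableEq ι]
variable {G : CE ι → Matrix ι ι ℂ} {F : CE ι → ℂ} {z : CE ι}

/-- `∑_{j,k} ∂̄_j F ∂_k F K(k,j)`, the complex form of `|∂f|²_G`. -/
noncomputable def ntbE (G : CE ι → Matrix ι ι ℂ) (F : CE ι → ℂ) (y : CE ι) : ℂ :=
  ∑ j, ∑ k, dzb j F y * dz k F y * (G y)⁻¹ k j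

/-- `∑_{p,q} K(p,q) ∂̄_q∂_p F`, the complex form of `Δ_G f`. -/
noncomputable def ntbL (G : CE ι → Matrix ι ι ℂ) (F : CE ι → ℂ) (y : CE ι) : ℂ :=
  ∑ p, ∑ q, (G y)⁻¹ p q * dzb q (dz p F) y

theorem ntb_eqns_cite : True := by
  have := @ntbE.eq_1
  have := @ntbL.eq_1
  trivial

theorem ntb_smooth_dz (hF : ContDiffAt ℝ ∞ F z) (k : ι) :
    ContDiffAt ℝ ∞ (dz k F) z := contDiffAt_dz hF (by simp)

theorem ntb_smooth_dzb (hF : ContDiffAt ℝ ∞ F z) (k : ι) :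
    ContDiffAt ℝ ∞ (dzb k F) z := contDiffAt_dzb hF (by simp)

theorem ntb_two (hF : ContDiffAt ℝ ∞ F z) : ContDiffAt ℝ 2 F z :=
  hF.of_le lv_two_le_infty

theorem ntb_diff (hF : ContDiffAt ℝ ∞ F z) : DifferentiableAt ℝ F z :=
  hF.differentiableAt (by simp)

theorem ntb_dzb_dzb (hr : ∀ j, dzb j F = fun y => conj (dz j F y)) (p j : ι) :
    dzb p (dzb j F) z = conj (dz p (dz j F) z) := by
  rw [hr, dzb_conj]

theorem ntb_dzb_dz_dzb (hF : ContDiffAt ℝ ∞ F z) (hr : ∀ j, dzb j F = fun y => conj (dz j F y))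
    (p j : ι) : dzb p (dz p (dzb j F)) z = conj (dzb p (dz p (dz j F)) z) := by
  have h1 : dz p (dzb j F) = fun y => conj (dzb p (dz j F) y) := by
    funext y; rw [hr, dz_conj]
  rw [h1, dzb_conj, dz_dzb_comm (ntb_two (ntb_smooth_dz hF j))]

/-- first derivative of `ntbE` at a normal point. -/
theorem ntb_dz_E (hG : ∀ j k, ContDiffAt ℝ 2 (fun w => G w j k) z) (h1 : G z = 1)
    (hd : ∀ l, dzM l G z = 0) (hF : ContDiffAt ℝ ∞ F z)
    (hr : ∀ j, dzb j F = fun y => conj (dz j F y)) (p : ι) :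
    dz p (ntbE G F) z = ∑ j, (dzb j (dz p F) z * dz j F z + conj (dz j F z) * dz p (dz j F) z) := by
  have hK := ntk_contDiffAt_inv hG h1
  have ha : ∀ k, DifferentiableAt ℝ (dz k F) z := fun k => ntb_diff (ntb_smooth_dz hF k)
  have hab : ∀ k, DifferentiableAt ℝ (dzb k F) z := fun k => ntb_diff (ntb_smooth_dzb hF k)
  have hKd : ∀ j k, DifferentiableAt ℝ (fun w => (G w)⁻¹ j k) z := ntk_diff hK
  have hprod : ∀ j k, DifferentiableAt ℝ (fun y => dzb j F y * dz k F y) z :=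
    fun j k => (hab j).mul (ha k)
  have hterm : ∀ j k, DifferentiableAt ℝ (fun y => dzb j F y * dz k F y * (G y)⁻¹ k j) z :=
    fun j k => (hprod j k).mul (hKd k j)
  have hK0 : ∀ j k, dz p (fun w => (G w)⁻¹ j k) z = 0 := fun j k =>
    congrFun (congrFun (ntk_dzM_inv_normal hG h1 (hd p)) j) k
  unfold ntbE
  rw [dz_sum Finset.univ (fun j y => ∑ k, dzb j F y * dz k F y * (G y)⁻¹ k j)
    (fun j _ => DifferentiableAt.fun_sum fun k _ => hterm j k)]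
  refine Finset.sum_congr rfl fun j _ => ?_
  rw [dz_sum Finset.univ (fun k y => dzb j F y * dz k F y * (G y)⁻¹ k j) (fun k _ => hterm j k)]
  have h2 : ∀ k, dz p (fun y => dzb j F y * dz k F y * (G y)⁻¹ k j) z = if k = j then
        (dzb j (dz p F) z * dz j F z + conj (dz j F z) * dz p (dz j F) z) else 0 := by
    intro k
    rw [dz_mul (hprod j k) (hKd k j), hK0 k j, h1, inv_one, Matrix.one_apply, mul_zero, add_zero]
    split_ifs with hkj
    · subst hkj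
      rw [mul_one, dz_mul (hab k) (ha k), dz_dzb_comm (ntb_two hF), congrFun (hr k) z]
    · rw [mul_zero]
  simp_rw [h2]
  rw [Finset.sum_ite_eq' Finset.univ j, if_pos (Finset.mem_univ j)]

/-- second derivative of `ntbE` at a normal point. -/
theorem ntb_dzb_dz_E (hG : ∀ j k, ContDiffAt ℝ 2 (fun w => G w j k) z) (h1 : G z = 1)
    (hd : ∀ l, dzM l G z = 0) (hdb : ∀ l, dzbM l G z = 0) (hF : ContDiffAt ℝ ∞ F z)
    (hr : ∀ j, dzb j F = fun y => conj (dz j F y)) (p : ι) :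
    dzb p (dz p (ntbE G F)) z =
      ∑ j, (conj (dzb p (dz p (dz j F)) z) * dz j F z + dzb j (dz p F) z * dzb p (dz j F) z
          + conj (dz p (dz j F) z) * dz p (dz j F) z + conj (dz j F z) * dzb p (dz p (dz j F)) z)
        - ∑ j, ∑ k, conj (dz j F z) * dz k F z * dzb p (dz p (fun y => G y k j)) z := by
  have hK := ntk_contDiffAt_inv hG h1
  have ha : ∀ k, ContDiffAt ℝ 2 (dz k F) z := fun k => ntb_two (ntb_smooth_dz hF k)
  have hab : ∀ k, ContDiffAt ℝ 2 (dzb k F) z := fun k => ntb_two (ntb_smooth_dzb hF k)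
  have hprod : ∀ j k, ContDiffAt ℝ 2 (fun y => dzb j F y * dz k F y) z :=
    fun j k => (hab j).mul (ha k)
  have hterm : ∀ j k, ContDiffAt ℝ 2 (fun y => dzb j F y * dz k F y * (G y)⁻¹ k j) z :=
    fun j k => (hprod j k).mul (hK k j)
  have hK0 : ∀ j k, dz p (fun w => (G w)⁻¹ j k) z = 0 := fun j k =>
    congrFun (congrFun (ntk_dzM_inv_normal hG h1 (hd p)) j) k
  have hK0b : ∀ j k, dzb p (fun w => (G w)⁻¹ j k) z = 0 := fun j k =>
    congrFun (congrFun (ntk_dzbM_inv_normal hG h1 (hdb p)) j) k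
  have hK2 : ∀ j k, dzb p (dz p (fun w => (G w)⁻¹ j k)) z = - dzb p (dz p (fun w => G w j k)) z :=
    fun j k => congrFun (congrFun (ntk_dzbM_dzM_inv_normal (l' := p) hG h1 (hd p)) j) k
  unfold ntbE
  rw [ntk_dzb_dz_sum Finset.univ (fun j y => ∑ k, dzb j F y * dz k F y * (G y)⁻¹ k j)
    (fun j _ => ContDiffAt.sum fun k _ => hterm j k), ← Finset.sum_sub_distrib]
  refine Finset.sum_congr rfl fun j _ => ?_
  rw [ntk_dzb_dz_sum Finset.univ (fun k y => dzb j F y * dz k F y * (G y)⁻¹ k j)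
    (fun k _ => hterm j k)]
  have h2 : ∀ k, dzb p (dz p (fun y => dzb j F y * dz k F y * (G y)⁻¹ k j)) z =
      (if k = j then (conj (dzb p (dz p (dz j F)) z) * dz j F z + dzb j (dz p F) z * dzb p (dz j F) z
          + conj (dz p (dz j F) z) * dz p (dz j F) z + conj (dz j F z) * dzb p (dz p (dz j F)) z)
        else 0) - conj (dz j F z) * dz k F z * dzb p (dz p (fun y => G y k j)) z := by
    intro k
    rw [ntk_dzb_dz_mul (hprod j k) (hK k j), hK0 k j, hK0b k j, hK2 k j, h1, inv_one,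
      Matrix.one_apply, congrFun (hr j) z]
    split_ifs with hkj
    · subst hkj
      rw [ntk_dzb_dz_mul (hab k) (ha k), ntb_dzb_dz_dzb hF hr, dz_dzb_comm (ntb_two hF),
        ntb_dzb_dzb hr, congrFun (hr k) z]
      ring
    · ring
  simp_rw [h2]
  rw [Finset.sum_sub_distrib, Finset.sum_ite_eq' Finset.univ j, if_pos (Finset.mem_univ j)]

/-- first derivative of `ntbL` at a normal point. -/
theorem ntb_dz_L (hG : ∀ j k, ContDiffAt ℝ 2 (fun w => G w j k) z) (h1 : G z = 1)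
    (hd : ∀ l, dzM l G z = 0) (hF : ContDiffAt ℝ ∞ F z) (j : ι) :
    dz j (ntbL G F) z = ∑ p, dzb p (dz p (dz j F)) z := by
  have hK := ntk_contDiffAt_inv hG h1
  have hKd : ∀ j k, DifferentiableAt ℝ (fun w => (G w)⁻¹ j k) z := ntk_diff hK
  have hL : ∀ p q, DifferentiableAt ℝ (dzb q (dz p F)) z :=
    fun p q => ntb_diff (ntb_smooth_dzb (ntb_smooth_dz hF p) q)
  have hterm : ∀ p q, DifferentiableAt ℝ (fun y => (G y)⁻¹ p q * dzb q (dz p F) y) z :=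
    fun p q => (hKd p q).mul (hL p q)
  have hK0 : ∀ a b, dz j (fun w => (G w)⁻¹ a b) z = 0 := fun a b =>
    congrFun (congrFun (ntk_dzM_inv_normal hG h1 (hd j)) a) b
  unfold ntbL
  rw [dz_sum Finset.univ (fun p y => ∑ q, (G y)⁻¹ p q * dzb q (dz p F) y)
    (fun p _ => DifferentiableAt.fun_sum fun q _ => hterm p q)]
  refine Finset.sum_congr rfl fun p _ => ?_
  rw [dz_sum Finset.univ (fun q y => (G y)⁻¹ p q * dzb q (dz p F) y) (fun q _ => hterm p q)]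
  have h2 : ∀ q, dz j (fun y => (G y)⁻¹ p q * dzb q (dz p F) y) z =
      if q = p then dzb p (dz p (dz j F)) z else 0 := by
    intro q
    rw [dz_mul (hKd p q) (hL p q), hK0 p q, h1, inv_one, Matrix.one_apply, zero_mul, zero_add]
    by_cases hqp : q = p
    · subst hqp
      rw [if_pos rfl, if_pos rfl, one_mul, dz_dzb_comm (ntb_two (ntb_smooth_dz hF q))]
      refine dzb_congr ?_
      have h3 : ∀ᶠ w in 𝓝 z, ContDiffAt ℝ 2 F w := lv_eventually_contDiffAt (ntb_two hF)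
      filter_upwards [h3] with w hw
      exact dz_dz_comm hw
    · rw [if_neg (fun h => hqp h.symm), if_neg hqp, zero_mul]
  simp_rw [h2]
  rw [Finset.sum_ite_eq' Finset.univ p, if_pos (Finset.mem_univ p)]

end chart

variable {V : Type} [NormedAddCommGroup V] [NormedSpace ℝ V] [FiniteDimensional ℝ V]
variable {n : ℕ}
variable {𝓜 : CMfd V (Fin n)} {g : HFam V (Fin n)}

theorem ntb_re_conj_mul (a b : ℂ) : (conj a * b).re = (conj b * a).re := by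
  simp only [Complex.mul_re, Complex.conj_re, Complex.conj_im]; ring

theorem ntb_re_conj_self (a : ℂ) : (conj a * a).re = ‖a‖ ^ 2 := by
  rw [mul_comm, Complex.mul_conj, Complex.ofReal_re, Complex.normSq_eq_norm_sq]

/-- Cauchy-Schwarz for the gradient of `|∂w|²`. -/
theorem ntb_cs {ι : Type} [Fintype ι] (α l s : ι → ℂ) :
    ‖∑ j, (l j * α j + conj (α j) * s j)‖ ^ 2 ≤
      2 * (∑ j, ‖α j‖ ^ 2) * ∑ j, (‖l j‖ ^ 2 + ‖s j‖ ^ 2) := by
  have h1 : ‖∑ j, (l j * α j + conj (α j) * s j)‖ ≤ ∑ j, ‖α j‖ * (‖l j‖ + ‖s j‖) := by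
    refine le_trans (norm_sum_le _ _) (Finset.sum_le_sum fun j _ => ?_)
    refine le_trans (norm_add_le _ _) (le_of_eq ?_)
    rw [norm_mul, norm_mul, RCLike.norm_conj]; ring
  have h2 := Finset.sum_mul_sq_le_sq_mul_sq Finset.univ (fun j => ‖α j‖) (fun j => ‖l j‖ + ‖s j‖)
  have h3 : ∑ j, (‖l j‖ + ‖s j‖) ^ 2 ≤ 2 * ∑ j, (‖l j‖ ^ 2 + ‖s j‖ ^ 2) := by
    rw [Finset.mul_sum]
    refine Finset.sum_le_sum fun j _ => ?_
    nlinarith [sq_nonneg (‖l j‖ - ‖s j‖)]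
  have h4 : 0 ≤ ∑ j, ‖α j‖ ^ 2 := Finset.sum_nonneg fun j _ => sq_nonneg _
  calc _ ≤ (∑ j, ‖α j‖ * (‖l j‖ + ‖s j‖)) ^ 2 := pow_le_pow_left₀ (norm_nonneg _) h1 2
    _ ≤ (∑ j, ‖α j‖ ^ 2) * ∑ j, (‖l j‖ + ‖s j‖) ^ 2 := h2
    _ ≤ (∑ j, ‖α j‖ ^ 2) * (2 * ∑ j, (‖l j‖ ^ 2 + ‖s j‖ ^ 2)) := mul_le_mul_of_nonneg_left h3 h4
    _ = _ := by ring

/-- **Bochner + Kato**, `Ric ≥ 0`. -/
theorem nt_bochner (hg : IsKahler 𝓜 g) (hric : leF 𝓜 0 (ricF g)) {w : V → ℝ} (hw : 𝓜.Smooth w)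
    {x : V} (hx : x ∈ 𝓜.carrier) :
    ipH 𝓜 g (ddc w) (ddc w) x ≤ bochH 𝓜 g w x ∧
      gradSq 𝓜 g (gradSq 𝓜 g w) x ≤ 2 * gradSq 𝓜 g w x * bochH 𝓜 g w x := by
  have hm : IsMetric 𝓜 g := hg.toIsMetric
  obtain ⟨Φ, U, hΦ, h0, hx0, hN2⟩ := exists_normal_coords hg hx
  subst hx0
  have hN : IsNormalAt g Φ := hN2.toIsNormalAt
  have hU : U ∈ 𝓝 (0 : CE (Fin n)) := (CMfd.isOpen_dom hΦ).mem_nhds h0
  have hG2 : ∀ a b, ContDiffAt ℝ 2 (fun w => g Φ w a b) 0 := hm.toIsHForm.contDiffAt_two hΦ h0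
  set F : CE (Fin n) → ℂ := fun y => (((w ∘ Φ) y : ℝ) : ℂ) with hFdef
  have hF : ContDiffAt ℝ ∞ F 0 := contDiffAt_ofReal (hw.contDiffAt_comp hΦ h0)
  have hr : ∀ j, dzb j F = fun y => conj (dz j F y) := fun j => by
    funext y; exact dzb_ofReal (w ∘ Φ)
  have hes : 𝓜.Smooth (gradSq 𝓜 g w) := smooth_gradSq hm hw
  have hls : 𝓜.Smooth (lap 𝓜 g w) := smooth_lap hm hw
  have E1 : (fun y => ((gradSq 𝓜 g w (Φ y) : ℝ) : ℂ)) =ᶠ[𝓝 0] ntbE (g Φ) F :=
    Filter.eventually_of_mem hU fun y hy => by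
      show ((gradSq 𝓜 g w (Φ y) : ℝ) : ℂ) = _
      rw [gradSq_eq hm w hΦ hy,
        ntp_qf_ofReal_sum (posDef_inv_transpose (hm.posDef hΦ y hy)).isHermitian, ntbE]
      refine Finset.sum_congr rfl fun j _ => Finset.sum_congr rfl fun k _ => ?_
      rw [congrFun (hr j) y]
      rfl
  have E2 : (fun y => ((lap 𝓜 g w (Φ y) : ℝ) : ℂ)) =ᶠ[𝓝 0] ntbL (g Φ) F :=
    Filter.eventually_of_mem hU fun y hy => by
      show ((lap 𝓜 g w (Φ y) : ℝ) : ℂ) = _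
      rw [lap_eq hm hw hΦ hy, ofReal_trace_inv_mul_re (hm.posDef hΦ y hy)
        (levi_isHermitian (hw.contDiffAt_comp_two hΦ hy)), ntbL]
      simp only [Matrix.trace, Matrix.diag_apply, Matrix.mul_apply]
      rfl
  -- notation
  set α : Fin n → ℂ := fun j => dz j F 0 with hα
  set L : Fin n → Fin n → ℂ := fun j p => dzb j (dz p F) 0 with hL
  set S : Fin n → Fin n → ℂ := fun p j => dz p (dz j F) 0 with hS
  set τ : Fin n → Fin n → ℂ := fun p j => dzb p (dz p (dz j F)) 0 with hτ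
  have hLc : ∀ j p, L p j = conj (L j p) := fun j p =>
    (levi_conj (f := w ∘ Φ) (j := j) (k := p) (hw.contDiffAt_comp_two hΦ h0)).symm
  have G1 : ∀ p, grad10 (gradSq 𝓜 g w ∘ Φ) 0 p = ∑ j, (L j p * α j + conj (α j) * S p j) :=
    fun p => by
      have : grad10 (gradSq 𝓜 g w ∘ Φ) 0 p = dz p (ntbE (g Φ) F) 0 := dz_congr E1
      rw [this, ntb_dz_E hG2 hN.one (ntp_dzM_zero hN) hF hr p]
  have G2 : ∀ p, (levi (gradSq 𝓜 g w ∘ Φ) 0 p p).re =
      ∑ j, (2 * (conj (α j) * τ p j).re + ‖L j p‖ ^ 2 + ‖S p j‖ ^ 2)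
        + ∑ j, ∑ k, (conj (α j) * α k * Rm g Φ 0 j k p p).re := fun p => by
    have : levi (gradSq 𝓜 g w ∘ Φ) 0 p p = dzb p (dz p (ntbE (g Φ) F)) 0 :=
      dzb_congr (dz_eventuallyEq E1)
    rw [this, ntb_dzb_dz_E hG2 hN.one (ntp_dzM_zero hN) (ntp_dzbM_zero hN) hF hr p,
      Complex.sub_re, Complex.re_sum, Complex.re_sum, sub_eq_add_neg, ← Finset.sum_neg_distrib]
    congr 1
    · refine Finset.sum_congr rfl fun j _ => ?_
      show (conj (τ p j) * α j + L j p * L p j + conj (S p j) * S p j + conj (α j) * τ p j).re = _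
      rw [Complex.add_re, Complex.add_re, Complex.add_re, ntb_re_conj_mul (τ p j) (α j), hLc j p,
        mul_comm (L j p), ntb_re_conj_self, ntb_re_conj_self]
      ring
    · refine Finset.sum_congr rfl fun j _ => ?_
      rw [Complex.re_sum, ← Finset.sum_neg_distrib]
      refine Finset.sum_congr rfl fun k _ => ?_
      rw [hN.Rm_eq j k p p, mul_neg, Complex.neg_re]
  have G3 : ∀ j, grad10 (lap 𝓜 g w ∘ Φ) 0 j = ∑ p, τ p j := fun j => by
    have : grad10 (lap 𝓜 g w ∘ Φ) 0 j = dz j (ntbL (g Φ) F) 0 := dz_congr E2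
    rw [this, ntb_dz_L hG2 hN.one (ntp_dzM_zero hN) hF j]
  have G4 : gradInner 𝓜 g w (lap 𝓜 g w) (Φ 0) = ∑ j, ∑ p, (conj (α j) * τ p j).re := by
    rw [gradInner_eq hm w _ hΦ h0, hN.one]
    simp only [dualIP, inv_one, Matrix.transpose_one, Matrix.one_mulVec, dotProduct, Pi.star_apply,
      Complex.re_sum]
    refine Finset.sum_congr rfl fun j _ => ?_
    rw [G3 j, Finset.mul_sum, Complex.re_sum]
    rfl
  -- the Ricci term
  have hRic : 0 ≤ ∑ p, ∑ j, ∑ k, (conj (α j) * α k * Rm g Φ 0 j k p p).re := by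
    have h1 : 0 ≤ qf (ricF g Φ 0) (fun j => conj (α j)) := by
      have := hric Φ U hΦ 0 h0
      simp only [Pi.zero_apply, sub_zero] at this
      exact qf_nonneg this _
    rw [qf_eq_sum] at h1
    refine le_of_le_of_eq h1 ?_
    have h2 : ∀ j k, ricF g Φ 0 k j = ∑ p, Rm g Φ 0 j k p p := fun j k => by
      rw [ricF_eq_sum_Rm hg hΦ h0 j k, hN.one, inv_one]
      refine Finset.sum_congr rfl fun l _ => ?_
      simp only [Matrix.one_apply, ite_mul, one_mul, zero_mul]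
      rw [Finset.sum_ite_eq Finset.univ l, if_pos (Finset.mem_univ l)]
    have h3 : (∑ j, ∑ k, conj (conj (α j)) * ricF g Φ 0 j k * conj (α k))
        = ∑ p, ∑ j, ∑ k, conj (α j) * α k * Rm g Φ 0 j k p p := by
      have h4 : ∑ p, ∑ j, ∑ k, conj (α j) * α k * Rm g Φ 0 j k p p
          = ∑ j, ∑ k, ∑ p, conj (α j) * α k * Rm g Φ 0 j k p p := by
        rw [Finset.sum_comm]
        exact Finset.sum_congr rfl fun j _ => Finset.sum_comm
      rw [h4, Finset.sum_comm]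
      refine Finset.sum_congr rfl fun j _ => Finset.sum_congr rfl fun k _ => ?_
      rw [h2 j k, Complex.conj_conj, ← Finset.mul_sum]
      ring
    rw [h3, Complex.re_sum]
    refine Finset.sum_congr rfl fun p _ => ?_
    rw [Complex.re_sum]
    exact Finset.sum_congr rfl fun j _ => Complex.re_sum _ _
  set Q : ℝ := ∑ p, ∑ j, (‖L j p‖ ^ 2 + ‖S p j‖ ^ 2) with hQ
  set Rc : ℝ := ∑ p, ∑ j, ∑ k, (conj (α j) * α k * Rm g Φ 0 j k p p).re with hRc
  have hB : bochH 𝓜 g w (Φ 0) = Q + Rc := by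
    have e1 : ∑ p, ∑ j, (2 * (conj (α j) * τ p j).re + ‖L j p‖ ^ 2 + ‖S p j‖ ^ 2)
        = 2 * (∑ j, ∑ p, (conj (α j) * τ p j).re) + Q := by
      rw [Finset.sum_comm (f := fun j p => (conj (α j) * τ p j).re), Finset.mul_sum, hQ,
        ← Finset.sum_add_distrib]
      refine Finset.sum_congr rfl fun p _ => ?_
      rw [Finset.mul_sum, ← Finset.sum_add_distrib]
      exact Finset.sum_congr rfl fun j _ => by ring
    rw [bochH, hN.lap_eq hm hes hΦ h0, G4]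
    simp_rw [G2]
    rw [Finset.sum_add_distrib, e1]
    ring
  have hQ0 : 0 ≤ Q := Finset.sum_nonneg fun p _ => Finset.sum_nonneg fun j _ => by positivity
  have he : gradSq 𝓜 g w (Φ 0) = ∑ j, ‖α j‖ ^ 2 := hN.gradSq_eq hm w hΦ h0
  have he0 : 0 ≤ ∑ j, ‖α j‖ ^ 2 := Finset.sum_nonneg fun j _ => sq_nonneg _
  refine ⟨?_, ?_⟩
  · have hd : IsHForm 𝓜 (ddc w) := isHForm_ddc hw
    rw [hB, ipH_eq hm hd hd hΦ h0, hN.one, inv_one, Matrix.one_mul, Matrix.mul_one]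
    have e2 : ((ddc w Φ 0 * ddc w Φ 0 : Matrix (Fin n) (Fin n) ℂ)).trace.re
        = ∑ p, ∑ j, ‖L j p‖ ^ 2 := by
      simp only [Matrix.trace, Matrix.diag_apply, Matrix.mul_apply, Complex.re_sum]
      refine Finset.sum_congr rfl fun p _ => Finset.sum_congr rfl fun j _ => ?_
      show (L p j * L j p).re = _
      rw [hLc j p, ntb_re_conj_self]
    rw [e2]
    have e3 : ∑ p, ∑ j, ‖L j p‖ ^ 2 ≤ Q :=
      Finset.sum_le_sum fun p _ => Finset.sum_le_sum fun j _ => by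
        have := sq_nonneg ‖S p j‖
        linarith
    linarith
  · rw [hB, hN.gradSq_eq hm _ hΦ h0, he]
    have e4 : ∑ p, ‖grad10 (gradSq 𝓜 g w ∘ Φ) 0 p‖ ^ 2 ≤ 2 * (∑ j, ‖α j‖ ^ 2) * Q := by
      rw [hQ, Finset.mul_sum]
      refine Finset.sum_le_sum fun p _ => ?_
      rw [G1 p]
      exact ntb_cs α (fun j => L j p) (fun j => S p j)
    refine le_trans e4 ?_
    have : 0 ≤ 2 * (∑ j, ‖α j‖ ^ 2) := by positivity
    exact mul_le_mul_of_nonneg_left (by linarith) this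

end Claimed.Agent.R316
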