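import Claimed.Agent.R316.Pack004
import Claimed.Agent.R316.CW.Levi

/-!
# Row 316, `BP-G10`: second order Wirtinger calculus of matrix functions; the inverse at a normal point

Owner: helper268.  SORRY-FREE toolbox for the leaves `G10-1`, `G10-2`, `G10-3` (framework independent: `CW/MatFun.lean`, `CW/Levi.lean` only).

* `ntk_dzbM_dzM_mul`: `∂̄_m∂_l (A B) = ∂̄_m∂_l A · B + ∂_l A · ∂̄_m B + ∂̄_m A · ∂_l B + A · ∂̄_m∂_l B`;
* `ntk_dzb_dz_mul`, `ntk_dzb_dz_sum`, `ntk_dzb_dz_const_mul`: the scalar versions;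
* `ntk_dzb_dz_trace`;
* `ntk_dzM_inv_normal`, `ntk_dzbM_inv_normal`, `ntk_dzbM_dzM_inv_normal`: `K = G⁻¹` at a point with `G = 1`, `∂G = ∂̄G = 0`: `∂K = ∂̄K = 0`, `∂̄_m∂_l K = - ∂̄_m∂_l G`.
-/

set_option autoImplicit false
set_option linter.unusedSectionVars false
open scoped ContDiff ComplexOrder Topology Matrix

namespace Claimed.Agent.R316

variable {ι : Type} [Fintype ι] [DecidableEq ι]
variable {m n p : Type} [Fintype m] [Fintype n] [Fintype p] [DecidableEq m] [DecidableEq n]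
  [DecidableEq p]
variable {z : CE ι} {l l' : ι}

/-! ### scalars -/

theorem ntk_dzb_dz_mul {f g : CE ι → ℂ} (hf : ContDiffAt ℝ 2 f z) (hg : ContDiffAt ℝ 2 g z) :
    dzb l' (dz l (fun w => f w * g w)) z =
      dzb l' (dz l f) z * g z + dz l f z * dzb l' g z + dzb l' f z * dz l g z
        + f z * dzb l' (dz l g) z := by
  have h1 : dz l (fun w => f w * g w) =ᶠ[𝓝 z] fun w => dz l f w * g w + f w * dz l g w := by
    filter_upwards [lv_eventually_differentiableAt hf, lv_eventually_differentiableAt hg]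
      with w hw1 hw2
    exact dz_mul hw1 hw2
  have hfd : DifferentiableAt ℝ f z := hf.differentiableAt (by norm_num)
  have hgd : DifferentiableAt ℝ g z := hg.differentiableAt (by norm_num)
  have e1 : DifferentiableAt ℝ (fun w => dz l f w * g w) z := (lv_differentiableAt_dz hf).mul hgd
  have e2 : DifferentiableAt ℝ (fun w => f w * dz l g w) z := hfd.mul (lv_differentiableAt_dz hg)
  rw [dzb_congr h1, dzb_add e1 e2,
    dzb_mul (f := fun w => dz l f w) (lv_differentiableAt_dz hf) hgd,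
    dzb_mul (g := fun w => dz l g w) hfd (lv_differentiableAt_dz hg)]
  ring

theorem ntk_dzb_dz_sum {α : Type} (s : Finset α) (F : α → CE ι → ℂ)
    (hF : ∀ a ∈ s, ContDiffAt ℝ 2 (F a) z) :
    dzb l' (dz l (fun w => ∑ a ∈ s, F a w)) z = ∑ a ∈ s, dzb l' (dz l (F a)) z := by
  have h1 : dz l (fun w => ∑ a ∈ s, F a w) =ᶠ[𝓝 z] fun w => ∑ a ∈ s, dz l (F a) w := by
    have h2 : ∀ᶠ w in 𝓝 z, ∀ a ∈ s, DifferentiableAt ℝ (F a) w :=
      (Filter.eventually_all_finset s).2 fun a ha => lv_eventually_differentiableAt (hF a ha)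
    filter_upwards [h2] with w hw
    exact dz_sum s F hw
  rw [dzb_congr h1, dzb_sum s (fun a => dz l (F a)) fun a ha => lv_differentiableAt_dz (hF a ha)]

theorem ntk_dzb_dz_const_mul (c : ℂ) {f : CE ι → ℂ} (hf : ContDiffAt ℝ 2 f z) :
    dzb l' (dz l (fun w => c * f w)) z = c * dzb l' (dz l f) z := by
  have h1 : dz l (fun w => c * f w) =ᶠ[𝓝 z] fun w => c * dz l f w := by
    filter_upwards [lv_eventually_differentiableAt hf] with w hw
    exact dz_const_mul c hw
  rw [dzb_congr h1, dzb_const_mul c (lv_differentiableAt_dz hf)]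

theorem ntk_dzb_dz_add {f g : CE ι → ℂ} (hf : ContDiffAt ℝ 2 f z) (hg : ContDiffAt ℝ 2 g z) :
    dzb l' (dz l (fun w => f w + g w)) z = dzb l' (dz l f) z + dzb l' (dz l g) z := by
  have h1 : dz l (fun w => f w + g w) =ᶠ[𝓝 z] fun w => dz l f w + dz l g w := by
    filter_upwards [lv_eventually_differentiableAt hf, lv_eventually_differentiableAt hg]
      with w hw1 hw2
    exact dz_add hw1 hw2
  rw [dzb_congr h1, dzb_add (lv_differentiableAt_dz hf) (lv_differentiableAt_dz hg)]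

/-! ### matrices -/

section mat

variable {A : CE ι → Matrix m n ℂ} {B : CE ι → Matrix n p ℂ} {H G : CE ι → Matrix m m ℂ}

theorem ntk_diff (hA : ∀ j k, ContDiffAt ℝ 2 (fun w => A w j k) z) (j : m) (k : n) :
    DifferentiableAt ℝ (fun w => A w j k) z := (hA j k).differentiableAt (by norm_num)

theorem ntk_eventually_diff (hA : ∀ j k, ContDiffAt ℝ 2 (fun w => A w j k) z) :
    ∀ᶠ w in 𝓝 z, ∀ j k, DifferentiableAt ℝ (fun y => A y j k) w :=
  Filter.eventually_all.2 fun j => Filter.eventually_all.2 fun k =>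
    lv_eventually_differentiableAt (hA j k)

theorem ntk_diff_dzM (hA : ∀ j k, ContDiffAt ℝ 2 (fun w => A w j k) z) (j : m) (k : n) :
    DifferentiableAt ℝ (fun w => dzM l A w j k) z := lv_differentiableAt_dz (hA j k)

theorem ntk_diff_dzbM (hA : ∀ j k, ContDiffAt ℝ 2 (fun w => A w j k) z) (j : m) (k : n) :
    DifferentiableAt ℝ (fun w => dzbM l A w j k) z := lv_differentiableAt_dzb (hA j k)

/-- second order Leibniz rule. -/
theorem ntk_dzbM_dzM_mul (hA : ∀ j k, ContDiffAt ℝ 2 (fun w => A w j k) z)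
    (hB : ∀ j k, ContDiffAt ℝ 2 (fun w => B w j k) z) :
    dzbM l' (dzM l (fun w => A w * B w)) z =
      dzbM l' (dzM l A) z * B z + dzM l A z * dzbM l' B z + dzbM l' A z * dzM l B z
        + A z * dzbM l' (dzM l B) z := by
  have h1 : ∀ᶠ w in 𝓝 z, dzM l (fun y => A y * B y) w = dzM l A w * B w + A w * dzM l B w := by
    filter_upwards [ntk_eventually_diff hA, ntk_eventually_diff hB] with w hw1 hw2
    exact dzM_mul hw1 hw2
  rw [dzbM_congr h1,
    dzbM_add (A := fun w => dzM l A w * B w) (A₂ := fun w => A w * dzM l B w)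
      (differentiableAt_matMul (ntk_diff_dzM hA) (ntk_diff hB))
      (differentiableAt_matMul (ntk_diff hA) (ntk_diff_dzM hB)),
    dzbM_mul (A := fun w => dzM l A w) (ntk_diff_dzM hA) (ntk_diff hB),
    dzbM_mul (B := fun w => dzM l B w) (ntk_diff hA) (ntk_diff_dzM hB)]
  abel

theorem ntk_dzb_dz_trace (hH : ∀ j k, ContDiffAt ℝ 2 (fun w => H w j k) z) :
    dzb l' (dz l (fun w => (H w).trace)) z = (dzbM l' (dzM l H) z).trace := by
  have h1 : dz l (fun w => (H w).trace) =ᶠ[𝓝 z] fun w => (dzM l H w).trace := by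
    filter_upwards [ntk_eventually_diff hH] with w hw
    exact dz_matTrace hw
  rw [dzb_congr h1, dzb_matTrace (H := fun w => dzM l H w) (ntk_diff_dzM hH)]

/-! ### the inverse at a normal point -/

theorem ntk_dzM_inv_normal (hG : ∀ j k, ContDiffAt ℝ 2 (fun w => G w j k) z) (h1 : G z = 1)
    (hd : dzM l G z = 0) : dzM l (fun w => (G w)⁻¹) z = 0 := by
  rw [dzM_inv (ntk_diff hG) (by rw [h1]; simp), hd]; simp

theorem ntk_dzbM_inv_normal (hG : ∀ j k, ContDiffAt ℝ 2 (fun w => G w j k) z) (h1 : G z = 1)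
    (hd : dzbM l G z = 0) : dzbM l (fun w => (G w)⁻¹) z = 0 := by
  rw [dzbM_inv (ntk_diff hG) (by rw [h1]; simp), hd]; simp

theorem ntk_contDiffAt_inv (hG : ∀ j k, ContDiffAt ℝ 2 (fun w => G w j k) z) (h1 : G z = 1)
    (j k : m) : ContDiffAt ℝ 2 (fun w => (G w)⁻¹ j k) z :=
  contDiffAt_matInv hG (by rw [h1]; simp) j k

theorem ntk_dzbM_dzM_inv_normal (hG : ∀ j k, ContDiffAt ℝ 2 (fun w => G w j k) z) (h1 : G z = 1)
    (hd : dzM l G z = 0) :
    dzbM l' (dzM l (fun w => (G w)⁻¹)) z = - dzbM l' (dzM l G) z := by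
  have hdet : (G z).det ≠ 0 := by rw [h1]; simp
  have hK := ntk_contDiffAt_inv hG h1
  have hKd : ∀ j k, DifferentiableAt ℝ (fun w => (G w)⁻¹ j k) z := ntk_diff hK
  have h2 : ∀ᶠ w in 𝓝 z, dzM l (fun y => (G y)⁻¹) w = - ((G w)⁻¹ * dzM l G w * (G w)⁻¹) := by
    filter_upwards [ntk_eventually_diff hG,
      eventually_det_ne_zero (fun j k => (hG j k).continuousAt) hdet] with w hw1 hw2
    exact dzM_inv hw1 hw2
  rw [dzbM_congr h2, dzbM_neg,
    dzbM_mul (A := fun w => (G w)⁻¹ * dzM l G w) (B := fun w => (G w)⁻¹)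
      (differentiableAt_matMul hKd (ntk_diff_dzM hG)) hKd,
    dzbM_mul (A := fun w => (G w)⁻¹) (B := fun w => dzM l G w) hKd (ntk_diff_dzM hG), hd, h1]
  simp

end mat

end Claimed.Agent.R316
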