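import Claimed.Agent.R316.Base.NiTam.Bochner

/-!
# Row 316, `BP-G10`, leaf `G10-6`: the integrated Bochner inequality (only SCALAR Green identities)

Statement by helper268 (frozen; prefix for auxiliary lemmas: `nte_`).

Notation: `e = gradSq w`, `f = Δw`, `H = bochH 𝓜 g w = Δe - 2⟨∂w,∂f⟩ ≥ 0`, all smooth (`smooth_gradSq`, `smooth_lap`, `smooth_gradInner`); all integrands below are continuous with compact
support (`integrable_hvol_of_csupp`, algebra of `CSupp` in `Vol/Part.lean`).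
1. `∫ φ² Δe = - ∫ ⟨∂φ²,∂e⟩ = - 2 ∫ φ ⟨∂φ,∂e⟩` (`integral_mul_lap`, `gradInner_mul_left`);  `|⟨∂φ,∂e⟩| ≤ √(gradSq φ) √(gradSq e) ≤ √(gradSq φ) √(2 e H)` (`abs_gradInner_le`, `nt_bochner`), so
   pointwise `2 φ |⟨∂φ,∂e⟩| ≤ ½ φ² H + 4 e gradSq φ`.
2. `∫ (φ² f) Δw = - ∫ ⟨∂(φ² f),∂w⟩ = - ∫ φ² ⟨∂f,∂w⟩ - 2 ∫ f φ ⟨∂φ,∂w⟩`, so `- 2 ∫ φ² ⟨∂w,∂f⟩ = 2 ∫ φ² f² + 4 ∫ f φ ⟨∂φ,∂w⟩ ≤ 4 ∫ φ² f² + 2 ∫ e gradSq φ`
   (`gradInner_comm`, `gradInner_sq_le`).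
3. `∫ φ² H ≤ ½ ∫ φ² H + 4 ∫ φ² f² + 6 ∫ e gradSq φ`, and `ipH g (dd w)(dd w) ≤ H` (`nt_bochner`).
-/

set_option autoImplicit false
set_option linter.unusedSectionVars false
set_option linter.unusedVariables false
open scoped ContDiff ComplexOrder Topology
open MeasureTheory

namespace Claimed.Agent.R316

variable {V : Type} [NormedAddCommGroup V] [NormedSpace ℝ V] [FiniteDimensional ℝ V]
  [MeasurableSpace V] [BorelSpace V]
variable {n : ℕ}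
variable {𝓜 : CMfd V (Fin n)} {g : HFam V (Fin n)}

/-- the pointwise algebra behind `nt_energy`. -/
theorem nte_alg {a H N Le q1 q2 q3 F p E Ge : ℝ} (hNH : N ≤ H) (hN0 : 0 ≤ N) (hGe : Ge ≤ 2 * E * H)
    (hq1 : q1 ^ 2 ≤ p * Ge) (hq2 : q2 ^ 2 ≤ p * E) (hH : H = Le - 2 * q3) (hp : 0 ≤ p)
    (hE : 0 ≤ E) :
    a ^ 2 * N ≤ 2 * (a * a * Le) + 2 * (2 * a * q1) + (-4) * (a * a * F * F)
      + (-4) * (a * a * q3 + F * (2 * a * q2)) + 8 * (a ^ 2 * F ^ 2) + 12 * (p * E) := by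
  have hH0 : 0 ≤ H := le_trans hN0 hNH
  have k1 : q1 ^ 2 ≤ 2 * p * E * H := by nlinarith [mul_le_mul_of_nonneg_left hGe hp]
  have k2 : (4 * a * q1) ^ 2 ≤ (a ^ 2 * H + 8 * p * E) ^ 2 := by
    nlinarith [mul_le_mul_of_nonneg_left k1 (sq_nonneg a), sq_nonneg (a ^ 2 * H - 8 * p * E)]
  have k3 : 0 ≤ a ^ 2 * H + 8 * p * E := by positivity
  have k4 := (abs_le_of_sq_le_sq' k2 k3).1
  have k5 : a ^ 2 * N ≤ a ^ 2 * H := mul_le_mul_of_nonneg_left hNH (sq_nonneg a)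
  have k6 := sq_nonneg (a * F - q2)
  subst hH
  nlinarith

/-- `∫ φ² |dd w|² ≤ 8 ∫ φ² (Δw)² + 12 ∫ |∂φ|² |∂w|²`  (`Ric ≥ 0`). -/
theorem nt_energy (hg : IsKahler 𝓜 g) (hric : leF 𝓜 0 (ricF g)) {φ w : V → ℝ} (hφ : 𝓜.Smooth φ)
    (hc : 𝓜.CSupp φ) (hw : 𝓜.Smooth w) :
    ∫ x, φ x ^ 2 * ipH 𝓜 g (ddc w) (ddc w) x ∂(hvol 𝓜 g) ≤
      8 * ∫ x, φ x ^ 2 * lap 𝓜 g w x ^ 2 ∂(hvol 𝓜 g)
        + 12 * ∫ x, gradSq 𝓜 g φ x * gradSq 𝓜 g w x ∂(hvol 𝓜 g) := by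
  have : ProperSpace V := FiniteDimensional.proper_real V
  have hm : IsMetric 𝓜 g := hg.toIsMetric
  have hes : 𝓜.Smooth (gradSq 𝓜 g w) := smooth_gradSq hm hw
  have hfs : 𝓜.Smooth (lap 𝓜 g w) := smooth_lap hm hw
  have hφ2 : 𝓜.Smooth (fun x => φ x * φ x) := hφ.mul hφ
  have hc2 : 𝓜.CSupp (fun x => φ x * φ x) := hc.mul_right φ
  have hφ2f : 𝓜.Smooth (fun x => φ x * φ x * lap 𝓜 g w x) := hφ2.mul hfs
  have hc2f : 𝓜.CSupp (fun x => φ x * φ x * lap 𝓜 g w x) := hc2.mul_right _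
  have I1 := integral_mul_lap hg hφ2.locLip hc2 hes
  have I2 := integral_mul_lap hg hφ2f.locLip hc2f hw
  have iZ1 : Integrable (fun x => φ x * φ x * lap 𝓜 g (gradSq 𝓜 g w) x) (hvol 𝓜 g) :=
    integrable_mul_lap_of_csupp hm hφ2.continuousOn hc2 hes
  have iZ2 : Integrable (gradInner 𝓜 g (fun x => φ x * φ x) (gradSq 𝓜 g w)) (hvol 𝓜 g) :=
    integrable_gradInner_of_csupp_left hm hφ2.locLip hc2 hes.locLip
  have iY1 : Integrable (fun x => φ x * φ x * lap 𝓜 g w x * lap 𝓜 g w x) (hvol 𝓜 g) :=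
    integrable_mul_lap_of_csupp hm hφ2f.continuousOn hc2f hw
  have iY2 : Integrable (gradInner 𝓜 g (fun x => φ x * φ x * lap 𝓜 g w x) w) (hvol 𝓜 g) :=
    integrable_gradInner_of_csupp_left hm hφ2f.locLip hc2f hw.locLip
  have iA : Integrable (fun x => φ x ^ 2 * lap 𝓜 g w x ^ 2) (hvol 𝓜 g) :=
    integrable_hvol_of_csupp hm ((hφ.continuousOn.pow 2).mul (hfs.continuousOn.pow 2))
      ((hc.pow two_ne_zero).mul_right _)
  have iB : Integrable (fun x => gradSq 𝓜 g φ x * gradSq 𝓜 g w x) (hvol 𝓜 g) :=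
    integrable_hvol_of_csupp hm ((smooth_gradSq hm hφ).continuousOn.mul hes.continuousOn)
      ((hc.gradSq g).mul_right _)
  have iN : Integrable (fun x => φ x ^ 2 * ipH 𝓜 g (ddc w) (ddc w) x) (hvol 𝓜 g) :=
    integrable_hvol_of_csupp hm ((hφ.continuousOn.pow 2).mul
      (smooth_ipH hm (isHForm_ddc hw) (isHForm_ddc hw)).continuousOn)
      ((hc.pow two_ne_zero).mul_right _)
  have hpt : ∀ x ∈ 𝓜.carrier, φ x ^ 2 * ipH 𝓜 g (ddc w) (ddc w) x ≤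
      2 * (φ x * φ x * lap 𝓜 g (gradSq 𝓜 g w) x)
        + 2 * gradInner 𝓜 g (fun x => φ x * φ x) (gradSq 𝓜 g w) x
        + (-4) * (φ x * φ x * lap 𝓜 g w x * lap 𝓜 g w x)
        + (-4) * gradInner 𝓜 g (fun x => φ x * φ x * lap 𝓜 g w x) w x
        + 8 * (φ x ^ 2 * lap 𝓜 g w x ^ 2) + 12 * (gradSq 𝓜 g φ x * gradSq 𝓜 g w x) := by
    intro x hx
    obtain ⟨b1, b2⟩ := nt_bochner hg hric hw hx
    have hN0 := ipH_self_nonneg hm (isHForm_ddc hw) hx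
    have g1 : gradInner 𝓜 g (fun x => φ x * φ x) (gradSq 𝓜 g w) x
        = 2 * φ x * gradInner 𝓜 g φ (gradSq 𝓜 g w) x := by
      rw [gradInner_mul_left g hx (hφ.diffAt hx) (hφ.diffAt hx)]; ring
    have g2 : gradInner 𝓜 g (fun x => φ x * φ x * lap 𝓜 g w x) w x
        = φ x * φ x * gradInner 𝓜 g w (lap 𝓜 g w) x
          + lap 𝓜 g w x * (2 * φ x * gradInner 𝓜 g φ w x) := by
      rw [gradInner_mul_left g hx (hφ2.diffAt hx) (hfs.diffAt hx),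
        gradInner_mul_left g hx (hφ.diffAt hx) (hφ.diffAt hx),
        gradInner_comm hm hx w (lap 𝓜 g w)]
      ring
    rw [g1, g2]
    exact nte_alg b1 hN0 b2 (gradInner_sq_le hm hx φ _) (gradInner_sq_le hm hx φ w) rfl
      (gradSq_nonneg hm φ hx) (gradSq_nonneg hm w hx)
  have h1 := integral_hvol_mono iN
    ((((((iZ1.const_mul 2).add (iZ2.const_mul 2)).add (iY1.const_mul (-4))).add
      (iY2.const_mul (-4))).add (iA.const_mul 8)).add (iB.const_mul 12)) hpt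
  refine le_trans h1 (le_of_eq ?_)
  rw [integral_add' (((((iZ1.const_mul 2).add (iZ2.const_mul 2)).add (iY1.const_mul (-4))).add
      (iY2.const_mul (-4))).add (iA.const_mul 8)) (iB.const_mul 12),
    integral_add' ((((iZ1.const_mul 2).add (iZ2.const_mul 2)).add (iY1.const_mul (-4))).add
      (iY2.const_mul (-4))) (iA.const_mul 8),
    integral_add' (((iZ1.const_mul 2).add (iZ2.const_mul 2)).add (iY1.const_mul (-4)))
      (iY2.const_mul (-4)),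
    integral_add' ((iZ1.const_mul 2).add (iZ2.const_mul 2)) (iY1.const_mul (-4)),
    integral_add' (iZ1.const_mul 2) (iZ2.const_mul 2),
    integral_const_mul, integral_const_mul, integral_const_mul, integral_const_mul,
    integral_const_mul, integral_const_mul, I1, I2]
  ring

end Claimed.Agent.R316
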