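import Claimed.Agent.R316.Base.NiTam.Point

/-!
# Row 316, `BP-G10`, leaf `G10-2`: the pointwise inequality for `|B|²_g`; linear algebra of `ipH`

Statements and proofs by helper268.  SORRY-FREE (modulo `CM/Normal.lean`, `CM/Curv.lean`).

`nt_norm_ineq`.  `B` closed real `(1,1)`-form, `N = ipH 𝓜 g B B = tr (G⁻¹ B G⁻¹ B)`.  Take normal coordinates at `x` diagonalising `B`
(`exists_normal_coords_diag`: `G(0) = 1`, `dG(0) = 0`, `B(0) = diag λ`), `K = G⁻¹` (`∂K(0) = ∂̄K(0) = 0`, `∂̄_p∂_p K(0) = - ∂̄_p∂_p G(0)`, see `Point.lean` (a)).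
Put `D := ∑_{p,j,k} ‖∂_p B(j,k)(0)‖²`.
* `∂_p N(0) = tr (∂_p B · B + B · ∂_p B) = 2 ∑_j λ_j ∂_p B(j,j)`; Cauchy-Schwarz: `gradSq N = ∑_p ‖∂_p N‖² ≤ 4 (∑ λ_j²) D = 4 N D` (`IsNormalAt.gradSq_eq`).
* `∂̄_p∂_p N(0) = 2 tr (∂̄_p∂_p K · B²) + tr (∂̄_p∂_p B · B + B · ∂̄_p∂_p B + ∂_p B · ∂̄_p B + ∂̄_p B · ∂_p B)`
  `= 2 ∑_j Rm j j p p λ_j² + 2 ∑_j λ_j ∂̄_p∂_p B(j,j) + 2 ∑_{j,k} ‖∂_p B(j,k)‖²`   (`∂̄_p B(k,j) = conj (∂_p B(j,k))`, `B` Hermitian near `0`; `IsNormalAt.Rm_eq`).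
* `ipH g B (dd tr B)(x) = ∑_j λ_j (dd tr B)(j,j) = ∑_j λ_j [∑_p ∂̄_p∂_p B(j,j) + ∑_p Rm p p j j λ_p]`   (`nt_ddc_tr_normal`, `ipH_eq`).
* hence `2 ipH g B (dd tr B) - Δ N = - 2 D - ∑_{j,p} Rm j j p p (λ_j - λ_p)²` (`Rm_symm_pair`), and `(Rm j j p p).re = bisec g Φ 0 e_j e_p ≥ 0`
  (the imaginary part vanishes: `Rm_conj`).
`lap`, `gradSq`, `ipH` in the parametrisation `Φ`: `IsNormalAt.lap_eq`, `IsNormalAt.gradSq_eq`, `ipH_eq`, `smooth_ipH`.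

`nt_neg_le_of_ipH_le`, `nt_ipH_add_le`: simultaneous diagonalisation (`st_exists_eigen` in `CM/FormsST.lean`, `exists_simDiag` in `CW/MatAlg.lean`) or:
`(A,B) ↦ tr (G⁻¹ A G⁻¹ B)` is a real inner product on Hermitian matrices (`ipH_self_nonneg` applied to `A - B` gives the parallelogram inequality).
-/

set_option autoImplicit false
set_option linter.unusedSectionVars false
set_option linter.unusedVariables false
open scoped ContDiff ComplexOrder Topology ComplexConjugate Matrix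
open MeasureTheory

namespace Claimed.Agent.R316

section chart

variable {ι : Type} [Fintype ι] [DecidableEq ι]
variable {G B : CE ι → Matrix ι ι ℂ} {z : CE ι} {lam : ι → ℝ}

/-- first derivative of `tr (G⁻¹ B G⁻¹ B)` at a normal point where `B` is diagonal. -/
theorem ntn_dz_trace_ip (hG : ∀ j k, ContDiffAt ℝ 2 (fun w => G w j k) z)
    (hB : ∀ j k, ContDiffAt ℝ 2 (fun w => B w j k) z) (h1 : G z = 1)
    (hd : ∀ l, dzM l G z = 0) (hD : B z = Matrix.diagonal fun i => ((lam i : ℝ) : ℂ)) (p : ι) :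
    dz p (fun y => ((G y)⁻¹ * B y * (G y)⁻¹ * B y).trace) z =
      2 * ∑ j, ((lam j : ℝ) : ℂ) * dz p (fun y => B y j j) z := by
  have hK := ntk_contDiffAt_inv hG h1
  have hP : ∀ j k, ContDiffAt ℝ 2 (fun w => ((G w)⁻¹ * B w) j k) z := contDiffAt_matMul hK hB
  have e : (fun y => ((G y)⁻¹ * B y * (G y)⁻¹ * B y).trace)
      = fun y => (((G y)⁻¹ * B y) * ((G y)⁻¹ * B y)).trace := by
    funext y; rw [Matrix.mul_assoc ((G y)⁻¹ * B y)]
  have hdP : dzM p (fun y => (G y)⁻¹ * B y) z = dzM p B z := by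
    rw [dzM_mul (A := fun y => (G y)⁻¹) (ntk_diff hK) (ntk_diff hB),
      ntk_dzM_inv_normal hG h1 (hd p), h1]
    simp
  rw [e, dz_matTrace (H := fun y => ((G y)⁻¹ * B y) * ((G y)⁻¹ * B y))
      (differentiableAt_matMul (ntk_diff hP) (ntk_diff hP)),
    dzM_mul (A := fun y => (G y)⁻¹ * B y) (B := fun y => (G y)⁻¹ * B y) (ntk_diff hP) (ntk_diff hP),
    hdP, h1, hD]
  simp only [inv_one, Matrix.one_mul, Matrix.trace, Matrix.diag_apply, Matrix.add_apply,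
    Matrix.mul_diagonal, Matrix.diagonal_mul, dzM_apply]
  rw [Finset.mul_sum]
  exact Finset.sum_congr rfl fun j _ => by ring

/-- second derivative of `tr (G⁻¹ B G⁻¹ B)` at a normal point where `B` is diagonal. -/
theorem ntn_dzb_dz_trace_ip (hG : ∀ j k, ContDiffAt ℝ 2 (fun w => G w j k) z)
    (hB : ∀ j k, ContDiffAt ℝ 2 (fun w => B w j k) z) (h1 : G z = 1)
    (hd : ∀ l, dzM l G z = 0) (hdb : ∀ l, dzbM l G z = 0)
    (hD : B z = Matrix.diagonal fun i => ((lam i : ℝ) : ℂ)) (p : ι) :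
    dzb p (dz p (fun y => ((G y)⁻¹ * B y * (G y)⁻¹ * B y).trace)) z =
      2 * ∑ j, ((lam j : ℝ) : ℂ) * (- (((lam j : ℝ) : ℂ) * dzb p (dz p (fun y => G y j j)) z)
          + dzb p (dz p (fun y => B y j j)) z)
        + 2 * ∑ j, ∑ k, dz p (fun y => B y j k) z * dzb p (fun y => B y k j) z := by
  have hK := ntk_contDiffAt_inv hG h1
  have hP : ∀ j k, ContDiffAt ℝ 2 (fun w => ((G w)⁻¹ * B w) j k) z := contDiffAt_matMul hK hB
  have e : (fun y => ((G y)⁻¹ * B y * (G y)⁻¹ * B y).trace)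
      = fun y => (((G y)⁻¹ * B y) * ((G y)⁻¹ * B y)).trace := by
    funext y; rw [Matrix.mul_assoc ((G y)⁻¹ * B y)]
  have hdP : dzM p (fun y => (G y)⁻¹ * B y) z = dzM p B z := by
    rw [dzM_mul (A := fun y => (G y)⁻¹) (ntk_diff hK) (ntk_diff hB),
      ntk_dzM_inv_normal hG h1 (hd p), h1]
    simp
  have hdbP : dzbM p (fun y => (G y)⁻¹ * B y) z = dzbM p B z := by
    rw [dzbM_mul (A := fun y => (G y)⁻¹) (ntk_diff hK) (ntk_diff hB),
      ntk_dzbM_inv_normal hG h1 (hdb p), h1]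
    simp
  have hddP : dzbM p (dzM p (fun y => (G y)⁻¹ * B y)) z =
      - dzbM p (dzM p G) z * B z + dzbM p (dzM p B) z := by
    rw [ntk_dzbM_dzM_mul (A := fun y => (G y)⁻¹) hK hB, ntk_dzbM_dzM_inv_normal hG h1 (hd p),
      ntk_dzM_inv_normal hG h1 (hd p), ntk_dzbM_inv_normal hG h1 (hdb p), h1]
    simp
  rw [e, ntk_dzb_dz_trace (H := fun y => ((G y)⁻¹ * B y) * ((G y)⁻¹ * B y)) (contDiffAt_matMul hP hP),
    ntk_dzbM_dzM_mul (A := fun y => (G y)⁻¹ * B y) (B := fun y => (G y)⁻¹ * B y) hP hP,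
    hdP, hdbP, hddP, h1, hD]
  simp only [inv_one, Matrix.one_mul, Matrix.trace_add]
  rw [Matrix.trace_mul_comm (dzbM p B z) (dzM p B z)]
  have t1 : ((-dzbM p (dzM p G) z * (Matrix.diagonal fun i => ((lam i : ℝ) : ℂ))
      + dzbM p (dzM p B) z) * Matrix.diagonal fun i => ((lam i : ℝ) : ℂ)).trace =
      ∑ j, ((lam j : ℝ) : ℂ) * (- (((lam j : ℝ) : ℂ) * dzb p (dz p (fun y => G y j j)) z)
          + dzb p (dz p (fun y => B y j j)) z) := by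
    simp only [Matrix.trace, Matrix.diag_apply, Matrix.mul_diagonal, Matrix.add_apply,
      Matrix.neg_apply]
    refine Finset.sum_congr rfl fun j _ => ?_
    simp only [dzbM_apply]
    have a1 : (fun w => dzM p G w j j) = dz p (fun y => G y j j) := rfl
    have a2 : (fun w => dzM p B w j j) = dz p (fun y => B y j j) := rfl
    rw [a1, a2]; ring
  have t2 : ((Matrix.diagonal fun i => ((lam i : ℝ) : ℂ)) *
      (-dzbM p (dzM p G) z * (Matrix.diagonal fun i => ((lam i : ℝ) : ℂ))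
      + dzbM p (dzM p B) z)).trace =
      ∑ j, ((lam j : ℝ) : ℂ) * (- (((lam j : ℝ) : ℂ) * dzb p (dz p (fun y => G y j j)) z)
          + dzb p (dz p (fun y => B y j j)) z) := by
    rw [Matrix.trace_mul_comm]; exact t1
  have t3 : (dzM p B z * dzbM p B z).trace
      = ∑ j, ∑ k, dz p (fun y => B y j k) z * dzb p (fun y => B y k j) z := by
    simp only [Matrix.trace, Matrix.diag_apply, Matrix.mul_apply, dzM_apply, dzbM_apply]
  rw [t1, t2, t3]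
  ring

theorem ntn_trace_ip_ofReal {G B : Matrix ι ι ℂ} (hG : G.PosDef) (hB : B.IsHermitian) :
    (((G⁻¹ * B * G⁻¹ * B).trace.re : ℝ) : ℂ) = (G⁻¹ * B * G⁻¹ * B).trace := by
  have h1 : (G⁻¹ * B * G⁻¹).IsHermitian := by
    have := Matrix.isHermitian_mul_mul_conjTranspose G⁻¹ hB
    rwa [hG.inv.isHermitian.eq] at this
  apply Complex.ext
  · simp
  · simp [trace_mul_im h1 hB]

/-- the algebraic heart: `∑ r_{jp} λ_j λ_p ≤ ∑ r_{jp} λ_j²` for `r ≥ 0` symmetric. -/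
theorem ntn_sum_le (r : ι → ι → ℝ) (hr0 : ∀ j p, 0 ≤ r j p) (hrs : ∀ j p, r j p = r p j)
    (lam : ι → ℝ) :
    ∑ j, ∑ p, r j p * (lam j * lam p) ≤ ∑ j, ∑ p, r j p * lam j ^ 2 := by
  have h1 : 0 ≤ ∑ j, ∑ p, r j p * (lam j - lam p) ^ 2 :=
    Finset.sum_nonneg fun j _ => Finset.sum_nonneg fun p _ => mul_nonneg (hr0 j p) (sq_nonneg _)
  have h2 : ∑ j, ∑ p, r j p * lam p ^ 2 = ∑ j, ∑ p, r j p * lam j ^ 2 := by
    rw [Finset.sum_comm]
    exact Finset.sum_congr rfl fun j _ => Finset.sum_congr rfl fun p _ => by rw [hrs]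
  have h3 : ∑ j, ∑ p, r j p * (lam j - lam p) ^ 2 =
      ∑ j, ∑ p, r j p * lam j ^ 2 - 2 * ∑ j, ∑ p, r j p * (lam j * lam p)
        + ∑ j, ∑ p, r j p * lam p ^ 2 := by
    rw [Finset.mul_sum, ← Finset.sum_sub_distrib, ← Finset.sum_add_distrib]
    refine Finset.sum_congr rfl fun j _ => ?_
    rw [Finset.mul_sum, ← Finset.sum_sub_distrib, ← Finset.sum_add_distrib]
    exact Finset.sum_congr rfl fun p _ => by ring
  rw [h3, h2] at h1
  linarith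

end chart

variable {V : Type} [NormedAddCommGroup V] [NormedSpace ℝ V] [FiniteDimensional ℝ V]
variable {n : ℕ}
variable {𝓜 : CMfd V (Fin n)} {g : HFam V (Fin n)}

theorem ntn_bisec_single (g : HFam V (Fin n)) (Φ : CE (Fin n) → V) (z : CE (Fin n)) (j p : Fin n) :
    bisec g Φ z (Pi.single j 1) (Pi.single p 1) = (Rm g Φ z j j p p).re := by
  simp only [bisec, Pi.single_apply]
  congr 1
  simp [apply_ite]

/-- **`(∂_t - Δ)|B|² ≤ - 2 D`, `|∂|B|²|² ≤ 4 |B|² D`** along the Hodge flow (spatial statement: `∂_t |B|² = 2⟨B, dd tr B⟩`). -/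
theorem nt_norm_ineq (hg : IsKahler 𝓜 g) (hb : BisecNonneg 𝓜 g) {B : HFam V (Fin n)}
    (hB : IsHForm 𝓜 B) (hcl : IsClosedForm 𝓜 B) {x : V} (hx : x ∈ 𝓜.carrier) :
    ∃ D : ℝ, 0 ≤ D ∧
      2 * ipH 𝓜 g B (ddc (tr 𝓜 g B)) x - lap 𝓜 g (ipH 𝓜 g B B) x ≤ -(2 * D) ∧
      gradSq 𝓜 g (ipH 𝓜 g B B) x ≤ 4 * ipH 𝓜 g B B x * D := by
  have hm : IsMetric 𝓜 g := hg.toIsMetric
  obtain ⟨Φ, U, lam, hΦ, h0, hx0, hN2, hD⟩ := exists_normal_coords_diag hg hB hx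
  subst hx0
  have hN : IsNormalAt g Φ := hN2.toIsNormalAt
  have hU : U ∈ 𝓝 (0 : CE (Fin n)) := (CMfd.isOpen_dom hΦ).mem_nhds h0
  have hG2 : ∀ a b, ContDiffAt ℝ 2 (fun w => g Φ w a b) 0 := hm.toIsHForm.contDiffAt_two hΦ h0
  have hB2 : ∀ a b, ContDiffAt ℝ 2 (fun w => B Φ w a b) 0 := hB.contDiffAt_two hΦ h0
  have hNs : 𝓜.Smooth (ipH 𝓜 g B B) := smooth_ipH hm hB hB
  have e1 : (fun y => ((ipH 𝓜 g B B (Φ y) : ℝ) : ℂ)) =ᶠ[𝓝 0]
      fun y => ((g Φ y)⁻¹ * B Φ y * (g Φ y)⁻¹ * B Φ y).trace :=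
    Filter.eventually_of_mem hU fun w hw => by
      show ((ipH 𝓜 g B B (Φ w) : ℝ) : ℂ) = _
      rw [ipH_eq hm hB hB hΦ hw, ntn_trace_ip_ofReal (hm.posDef hΦ w hw) (hB.herm hΦ w hw)]
  -- notation
  set b : Fin n → Fin n → Fin n → ℂ := fun p j k => dz p (fun y => B Φ y j k) 0 with hbdef
  set r : Fin n → Fin n → ℝ := fun j p => (Rm g Φ 0 j j p p).re with hrdef
  set X : Fin n → Fin n → ℝ := fun p j => (dzb p (dz p (fun y => B Φ y j j)) 0).re with hXdef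
  have hr0 : ∀ j p, 0 ≤ r j p := fun j p => by
    rw [hrdef]; simp only
    rw [← ntn_bisec_single]; exact hb Φ U hΦ 0 h0 _ _
  have hrs : ∀ j p, r j p = r p j := fun j p => by
    rw [hrdef]; simp only
    rw [Rm_symm_pair hg hΦ h0 j j p p]
  -- (F1)
  have F1 : ipH 𝓜 g B B (Φ 0) = ∑ j, lam j ^ 2 := by
    rw [ipH_eq hm hB hB hΦ h0, hN.one, hD]
    simp only [inv_one, Matrix.one_mul, Matrix.mul_one, Matrix.diagonal_mul_diagonal,
      Matrix.trace_diagonal, Complex.re_sum]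
    refine Finset.sum_congr rfl fun j _ => ?_
    rw [← Complex.ofReal_mul, Complex.ofReal_re]; ring
  -- (F2)
  have F2 : ∀ p, grad10 (ipH 𝓜 g B B ∘ Φ) 0 p = 2 * ∑ j, ((lam j : ℝ) : ℂ) * b p j j := fun p => by
    have : grad10 (ipH 𝓜 g B B ∘ Φ) 0 p
        = dz p (fun y => ((g Φ y)⁻¹ * B Φ y * (g Φ y)⁻¹ * B Φ y).trace) 0 := dz_congr e1
    rw [this, ntn_dz_trace_ip hG2 hB2 hN.one (ntp_dzM_zero hN) hD p]
  -- (F3)
  have hconj : ∀ p j k, dzb p (fun y => B Φ y k j) 0 = conj (b p j k) := fun p j k => by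
    have h := conjTranspose_dzM_of_isHermitian (l := p) (hB.eventually_isHermitian hΦ h0)
    have h' := congrFun (congrFun h k) j
    exact h'.symm
  have F3 : ∀ p, (levi (ipH 𝓜 g B B ∘ Φ) 0 p p).re =
      2 * ∑ j, lam j * (lam j * r j p + X p j) + 2 * ∑ j, ∑ k, ‖b p j k‖ ^ 2 := fun p => by
    have : levi (ipH 𝓜 g B B ∘ Φ) 0 p p
        = dzb p (dz p (fun y => ((g Φ y)⁻¹ * B Φ y * (g Φ y)⁻¹ * B Φ y).trace)) 0 :=
      dzb_congr (dz_eventuallyEq e1)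
    rw [this, ntn_dzb_dz_trace_ip hG2 hB2 hN.one (ntp_dzM_zero hN) (ntp_dzbM_zero hN) hD p]
    have a1 : ∀ j, - (((lam j : ℝ) : ℂ) * dzb p (dz p (fun y => g Φ y j j)) 0)
        = ((lam j : ℝ) : ℂ) * Rm g Φ 0 j j p p := fun j => by
      rw [hN.Rm_eq j j p p]; ring
    have a2 : ∀ j k, dz p (fun y => B Φ y j k) 0 * dzb p (fun y => B Φ y k j) 0
        = ((‖b p j k‖ ^ 2 : ℝ) : ℂ) := fun j k => by
      rw [hconj p j k, Complex.mul_conj, Complex.normSq_eq_norm_sq]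
    simp_rw [a1, a2]
    simp only [Complex.add_re, Complex.mul_re, Complex.re_sum, Complex.ofReal_re, Complex.ofReal_im,
      zero_mul, sub_zero, Complex.re_ofNat, Complex.im_ofNat]
    rfl
  -- (F4)
  have hY : IsHForm 𝓜 (ddc (tr 𝓜 g B)) := isHForm_ddc (smooth_tr hm hB)
  have F4 : ipH 𝓜 g B (ddc (tr 𝓜 g B)) (Φ 0) =
      ∑ j, lam j * (∑ p, X p j + ∑ p, r p j * lam p) := by
    rw [ipH_eq hm hB hY hΦ h0, hN.one, hD]
    simp only [inv_one, Matrix.one_mul, Matrix.mul_one, Matrix.trace, Matrix.diag_apply,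
      Matrix.diagonal_mul, Complex.re_sum]
    refine Finset.sum_congr rfl fun j _ => ?_
    rw [nt_ddc_tr_normal hg hB hcl hΦ h0 hN j j, hD, Complex.re_ofReal_mul]
    congr 1
    rw [Complex.add_re, Complex.re_sum, Complex.re_sum]
    congr 1
    refine Finset.sum_congr rfl fun p _ => ?_
    simp only [Matrix.diagonal_apply, mul_ite, mul_zero]
    rw [Finset.sum_ite_eq' Finset.univ p, if_pos (Finset.mem_univ p), mul_comm,
      Complex.re_ofReal_mul, mul_comm]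
  refine ⟨∑ p, ∑ j, ∑ k, ‖b p j k‖ ^ 2, ?_, ?_, ?_⟩
  · exact Finset.sum_nonneg fun p _ => Finset.sum_nonneg fun j _ => Finset.sum_nonneg fun k _ =>
      sq_nonneg _
  · rw [hN.lap_eq hm hNs hΦ h0, F4]
    simp_rw [F3]
    have key := ntn_sum_le r hr0 hrs lam
    have c1 : ∑ j, lam j * (∑ p, X p j + ∑ p, r p j * lam p) =
        ∑ j, ∑ p, lam j * X p j + ∑ j, ∑ p, r j p * (lam j * lam p) := by
      rw [← Finset.sum_add_distrib]
      refine Finset.sum_congr rfl fun j _ => ?_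
      rw [mul_add, Finset.mul_sum, Finset.mul_sum]
      congr 1
      exact Finset.sum_congr rfl fun p _ => by rw [hrs p j]; ring
    have c2 : ∑ p, (2 * ∑ j, lam j * (lam j * r j p + X p j) + 2 * ∑ j, ∑ k, ‖b p j k‖ ^ 2) =
        2 * ∑ j, ∑ p, r j p * lam j ^ 2 + 2 * ∑ j, ∑ p, lam j * X p j
          + 2 * ∑ p, ∑ j, ∑ k, ‖b p j k‖ ^ 2 := by
      have c3 : ∑ p, ∑ j, lam j * (lam j * r j p + X p j) =
          ∑ j, ∑ p, r j p * lam j ^ 2 + ∑ j, ∑ p, lam j * X p j := by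
        rw [Finset.sum_comm, ← Finset.sum_add_distrib]
        refine Finset.sum_congr rfl fun j _ => ?_
        rw [← Finset.sum_add_distrib]
        exact Finset.sum_congr rfl fun p _ => by ring
      rw [Finset.sum_add_distrib, ← Finset.mul_sum, ← Finset.mul_sum, c3]
      ring
    rw [c1, c2]
    linarith
  · rw [hN.gradSq_eq hm _ hΦ h0, F1]
    simp_rw [F2]
    rw [Finset.mul_sum]
    refine Finset.sum_le_sum fun p _ => ?_
    have h1 : ‖∑ j, ((lam j : ℝ) : ℂ) * b p j j‖ ^ 2 ≤ (∑ j, lam j ^ 2) * ∑ j, ‖b p j j‖ ^ 2 := by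
      have h2 : ‖∑ j, ((lam j : ℝ) : ℂ) * b p j j‖ ≤ ∑ j, |lam j| * ‖b p j j‖ := by
        refine le_trans (norm_sum_le _ _) (le_of_eq (Finset.sum_congr rfl fun j _ => ?_))
        rw [norm_mul, Complex.norm_real, Real.norm_eq_abs]
      have h3 := Finset.sum_mul_sq_le_sq_mul_sq Finset.univ (fun j => |lam j|) (fun j => ‖b p j j‖)
      simp only [sq_abs] at h3
      exact le_trans (pow_le_pow_left₀ (norm_nonneg _) h2 2) h3
    have h4 : ∑ j, ‖b p j j‖ ^ 2 ≤ ∑ j, ∑ k, ‖b p j k‖ ^ 2 :=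
      Finset.sum_le_sum fun j _ =>
        Finset.single_le_sum (f := fun k => ‖b p j k‖ ^ 2) (fun k _ => sq_nonneg _) (Finset.mem_univ j)
    have h5 : 0 ≤ ∑ j, lam j ^ 2 := Finset.sum_nonneg fun j _ => sq_nonneg _
    rw [norm_mul, mul_pow]
    have h6 : ‖(2 : ℂ)‖ ^ 2 = 4 := by norm_num
    rw [h6]
    nlinarith [mul_le_mul_of_nonneg_left h4 h5]

/-- `|B|_g ≤ Λ ⟹ B ≥ - Λ g`. -/
theorem nt_neg_le_of_ipH_le (hg : IsMetric 𝓜 g) {B : HFam V (Fin n)} (hB : IsHForm 𝓜 B) {Λ : ℝ}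
    (hΛ0 : 0 ≤ Λ) (hΛ : ∀ x ∈ 𝓜.carrier, ipH 𝓜 g B B x ≤ Λ ^ 2) :
    leF 𝓜 (smulF (fun _ => -Λ) g) B := by
  intro Φ U hΦ z hz
  obtain ⟨T, d, hT, h1, hD⟩ := exists_simDiag (hg.posDef hΦ z hz) (hB.herm hΦ z hz)
  have h2 := hΛ (Φ z) (CMfd.mem_carrier hΦ hz)
  rw [ipH_eq hg hB hB hΦ hz, ← st_trace_ip_conj hT, h1, hD] at h2
  simp only [inv_one, Matrix.one_mul, Matrix.mul_one, Matrix.diagonal_mul_diagonal,
    Matrix.trace_diagonal, Complex.re_sum] at h2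
  refine (simDiag_ge_iff h1 hD (-Λ)).2 fun i => ?_
  have h3 : d i ^ 2 ≤ Λ ^ 2 := by
    refine le_trans ?_ h2
    have h4 : d i ^ 2 = (((d i : ℝ) : ℂ) * ((d i : ℝ) : ℂ)).re := by
      rw [← Complex.ofReal_mul, Complex.ofReal_re]; ring
    rw [h4]
    refine Finset.single_le_sum (f := fun i => (((d i : ℝ) : ℂ) * ((d i : ℝ) : ℂ)).re)
      (fun j _ => ?_) (Finset.mem_univ i)
    show 0 ≤ (((d j : ℝ) : ℂ) * ((d j : ℝ) : ℂ)).re
    rw [← Complex.ofReal_mul, Complex.ofReal_re]; exact mul_self_nonneg _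
  exact (abs_le.1 (abs_le_of_sq_le_sq h3 hΛ0)).1

/-- `|A + B|² ≤ 2|A|² + 2|B|²`. -/
theorem nt_ipH_add_le (hg : IsMetric 𝓜 g) {A B : HFam V (Fin n)} (hA : IsHForm 𝓜 A)
    (hB : IsHForm 𝓜 B) {x : V} (hx : x ∈ 𝓜.carrier) :
    ipH 𝓜 g (A + B) (A + B) x ≤ 2 * ipH 𝓜 g A A x + 2 * ipH 𝓜 g B B x := by
  have h1 := ipH_self_nonneg hg (hA.sub hB) hx
  have h2 : ipH 𝓜 g (A + B) (A + B) x + ipH 𝓜 g (fun Φ z => A Φ z - B Φ z) (fun Φ z => A Φ z - B Φ z) x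
      = 2 * ipH 𝓜 g A A x + 2 * ipH 𝓜 g B B x := by
    simp only [ipH, ipF, CMfd.scal, Pi.add_apply, Matrix.mul_add, Matrix.add_mul, Matrix.mul_sub,
      Matrix.sub_mul, Matrix.trace_add, Matrix.trace_sub, Complex.add_re, Complex.sub_re]
    ring
  linarith

/-- `|c g|² = c² n`. -/
theorem nt_ipH_smulF_const (hg : IsMetric 𝓜 g) (c : ℝ) {x : V} (hx : x ∈ 𝓜.carrier) :
    ipH 𝓜 g (smulF (fun _ => c) g) (smulF (fun _ => c) g) x = c ^ 2 * n := by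
  have hp := hg.posDef (CMfd.isHol_pΦ 𝓜 hx) _ (CMfd.co_mem 𝓜 hx)
  simp only [ipH, ipF, CMfd.scal, smulF, Matrix.mul_smul, Matrix.smul_mul,
    inv_mul_cancel_of_posDef hp, Matrix.one_mul, Matrix.trace_smul, Matrix.trace_one,
    Fintype.card_fin, smul_eq_mul]
  rw [← Complex.ofReal_natCast, ← Complex.ofReal_mul, ← Complex.ofReal_mul, Complex.ofReal_re]
  ring

/-- `|-B|² = |B|²`. -/
theorem nt_ipH_neg (𝓜 : CMfd V (Fin n)) (g B : HFam V (Fin n)) (x : V) :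
    ipH 𝓜 g (fun Φ z => - B Φ z) (fun Φ z => - B Φ z) x = ipH 𝓜 g B B x := by
  simp only [ipH, ipF, CMfd.scal, Matrix.mul_neg, Matrix.neg_mul, neg_neg]

end Claimed.Agent.R316
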