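import Claimed.Agent.R316.CM.FormsST

/-!
# Row 316, `BP-G10`, leaf `G10-9`: primitives in time of functions smooth on `[0,T] × U` (ONE-SIDED smoothness at the end points)

Statements by helper268 (frozen; prefix for auxiliary lemmas: `ntq_`).  FRAMEWORK INDEPENDENT: Mathlib + Part 1 of `CM/FormsST.lean` (slices of `ContDiffOn ℝ ∞ F (I ×ˢ U)`:
`contDiffOn_slice_space/_time`, `fderiv_slice_eq`, `contDiffOn_fderiv_slice`, `contDiffOn_dz_slice`, `contDiffOn_levi_slice`, `isTimeDom_Icc`, `IsTimeDom.uniqueDiffOn_prod`).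

`D = Icc 0 T ×ˢ U`, `W(b,z) = ∫₀ᵇ F(s,z) ds`.
1. `nt_fderiv_primitive` (differentiation under the integral in `z`, `U` open): `intervalIntegral.hasFDerivAt_integral_of_dominated_of_fderiv_le` on a closed ball `B̄(z,r) ⊆ U`; the bound: `(s,y) ↦ fderiv (F(s,·)) y`
   is continuous on the compact set `Icc 0 b ×ˢ B̄(z,r)` (apply `contDiffOn_fderiv_slice` to a basis, or `fderiv_slice_eq` + continuity of `fderivWithin`).
2. total derivative within `D`: `HasFDerivWithinAt W (F(b,z) • fst + (∫₀ᵇ D₂F(s,z) ds) ∘ snd) D (b,z)`: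
   `W(b',z') - W(b,z) = ∫_b^{b'} F(s,z') ds + (W(b,z') - W(b,z))`, and `‖∫_b^{b'} (F(s,z') - F(b,z)) ds‖ ≤ |b'-b| sup …`, small by continuity of `F` on `D` at `(b,z)`
   (`intervalIntegral.norm_integral_le_of_norm_le_const`; `[b,b'] ⊆ Icc 0 T`).
3. induction: `∀ m : ℕ, ∀ E F, ContDiffOn ℝ ∞ F D → ContDiffOn ℝ m W_F D` (`contDiffOn_succ_iff_fderivWithin` with `UniqueDiffOn D`): `fderivWithin W_F = F • fst + W_{D₂F} ∘ snd`, where `D₂F : ℝ × X → (X →L[ℝ] E)` is again `C^∞` on `D`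
   (it is `fderivWithin F D` composed with `ContinuousLinearMap.inr`), so the induction hypothesis applies to `D₂F` (this is why `E` is general).  `m = 0`: continuity follows from 2.
   Then `contDiffOn_infty`.
4. `nt_levi_primitive`: 1. twice (`dz`, `dzb` are fixed linear combinations of `fderiv · (eb j)`, `fderiv · (I • eb j)`; `intervalIntegral.integral_add/_const_mul`; the integrands are continuous in `s`).
-/

set_option autoImplicit false
set_option linter.unusedSectionVars false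
set_option linter.unusedVariables false
open scoped ContDiff ComplexOrder Topology
open MeasureTheory

namespace Claimed.Agent.R316

section general

variable {X E : Type} [NormedAddCommGroup X] [NormedSpace ℝ X] [FiniteDimensional ℝ X]
  [NormedAddCommGroup E] [NormedSpace ℝ E] [CompleteSpace E]

/-- the partial derivative in the space variable, as a continuous linear map. -/
noncomputable def ntqD2 (D : Set (ℝ × X)) (F : ℝ × X → E) (q : ℝ × X) : X →L[ℝ] E :=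
  (fderivWithin ℝ F D q).comp (ContinuousLinearMap.inr ℝ ℝ X)

theorem ntq_eqns_cite : True := by
  have := @ntqD2.eq_1
  trivial

omit [FiniteDimensional ℝ X] [CompleteSpace E] in
theorem ntq_contDiffOn_D2 {T : ℝ} (hT : 0 < T) {U : Set X} (hU : IsOpen U) {F : ℝ × X → E}
    (hF : ContDiffOn ℝ ∞ F (Set.Icc 0 T ×ˢ U)) :
    ContDiffOn ℝ ∞ (ntqD2 (Set.Icc 0 T ×ˢ U) F) (Set.Icc 0 T ×ˢ U) :=
  (hF.fderivWithin ((isTimeDom_Icc hT).uniqueDiffOn_prod hU) (m := ∞) (by simp)).clm_comp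
    contDiffOn_const

omit [FiniteDimensional ℝ X] [CompleteSpace E] in
theorem ntq_hasFDerivAt_slice {T : ℝ} {U : Set X} (hU : IsOpen U) {F : ℝ × X → E}
    (hF : ContDiffOn ℝ ∞ F (Set.Icc 0 T ×ˢ U)) {s : ℝ} (hs : s ∈ Set.Icc (0 : ℝ) T) {y : X}
    (hy : y ∈ U) :
    HasFDerivAt (fun y => F (s, y)) (ntqD2 (Set.Icc 0 T ×ˢ U) F (s, y)) y := by
  have h1 := (st_differentiableWithinAt hF hs hy).hasFDerivWithinAt
  have h2 : HasFDerivWithinAt (fun y : X => ((s, y) : ℝ × X)) (ContinuousLinearMap.inr ℝ ℝ X) U y :=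
    (hasFDerivAt_prodMk_right s y).hasFDerivWithinAt
  have h3 := h1.comp y h2 (fun y hy => (⟨hs, hy⟩ : (s, y) ∈ Set.Icc 0 T ×ˢ U))
  exact h3.hasFDerivAt (hU.mem_nhds hy)

omit [FiniteDimensional ℝ X] [CompleteSpace E] in
theorem ntq_continuousOn_time {T : ℝ} {U : Set X} {F : ℝ × X → E}
    (hF : ContinuousOn F (Set.Icc 0 T ×ˢ U)) {y : X} (hy : y ∈ U) :
    ContinuousOn (fun s => F (s, y)) (Set.Icc 0 T) :=
  hF.comp (continuous_id.prodMk continuous_const).continuousOn (fun s hs => ⟨hs, hy⟩)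

omit [FiniteDimensional ℝ X] [CompleteSpace E] in
theorem ntq_intervalIntegrable {T : ℝ} {U : Set X} {F : ℝ × X → E}
    (hF : ContinuousOn F (Set.Icc 0 T ×ˢ U)) {y : X} (hy : y ∈ U) {a b : ℝ}
    (ha : a ∈ Set.Icc (0 : ℝ) T) (hb : b ∈ Set.Icc (0 : ℝ) T) :
    IntervalIntegrable (fun s => F (s, y)) volume a b :=
  ((ntq_continuousOn_time hF hy).mono (Set.uIcc_subset_Icc ha hb)).intervalIntegrable

/-- differentiation under the integral sign. -/
theorem ntq_hasFDerivAt_integral {T : ℝ} (hT : 0 < T) {U : Set X} (hU : IsOpen U) {F : ℝ × X → E}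
    (hF : ContDiffOn ℝ ∞ F (Set.Icc 0 T ×ˢ U)) {b : ℝ} (hb : b ∈ Set.Icc (0 : ℝ) T) {z : X}
    (hz : z ∈ U) :
    HasFDerivAt (fun y => ∫ s in (0 : ℝ)..b, F (s, y))
      (∫ s in (0 : ℝ)..b, ntqD2 (Set.Icc 0 T ×ˢ U) F (s, z)) z := by
  have : ProperSpace X := FiniteDimensional.proper_real X
  have h0 : (0 : ℝ) ∈ Set.Icc (0 : ℝ) T := ⟨le_rfl, hT.le⟩
  have hsub : Set.uIoc (0 : ℝ) b ⊆ Set.Icc 0 T :=
    Set.uIoc_subset_uIcc.trans (Set.uIcc_subset_Icc h0 hb)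
  obtain ⟨r, hr, hrU⟩ := Metric.nhds_basis_closedBall.mem_iff.1 (hU.mem_nhds hz)
  have hD := (ntq_contDiffOn_D2 hT hU hF).continuousOn
  obtain ⟨C, hC⟩ := (isCompact_Icc.prod (isCompact_closedBall z r)).exists_bound_of_continuousOn
    (hD.mono (Set.prod_mono (subset_refl (Set.Icc (0 : ℝ) T)) hrU))
  refine intervalIntegral.hasFDerivAt_integral_of_dominated_of_fderiv_le
    (F := fun y s => F (s, y)) (F' := fun y s => ntqD2 (Set.Icc 0 T ×ˢ U) F (s, y))
    (bound := fun _ => C) (Metric.closedBall_mem_nhds z hr) ?_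
    (ntq_intervalIntegrable hF.continuousOn hz h0 hb) ?_ ?_ intervalIntegrable_const ?_
  · filter_upwards [hU.mem_nhds hz] with y hy
    exact ((ntq_continuousOn_time hF.continuousOn hy).mono hsub).aestronglyMeasurable
      measurableSet_uIoc
  · exact ((ntq_continuousOn_time hD hz).mono hsub).aestronglyMeasurable measurableSet_uIoc
  · exact Filter.Eventually.of_forall fun s hs y hy => hC (s, y) ⟨hsub hs, hy⟩
  · exact Filter.Eventually.of_forall fun s hs y hy => ntq_hasFDerivAt_slice hU hF (hsub hs) (hrU hy)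

/-- differentiation under the integral sign in the space variable. -/
theorem nt_fderiv_primitive {T : ℝ} (hT : 0 < T) {U : Set X} (hU : IsOpen U) {F : ℝ × X → E}
    (hF : ContDiffOn ℝ ∞ F (Set.Icc 0 T ×ˢ U)) {b : ℝ} (hb : b ∈ Set.Icc (0 : ℝ) T) {z : X}
    (hz : z ∈ U) (e : X) :
    fderiv ℝ (fun y => ∫ s in (0 : ℝ)..b, F (s, y)) z e =
      ∫ s in (0 : ℝ)..b, fderiv ℝ (fun y => F (s, y)) z e := by
  have h0 : (0 : ℝ) ∈ Set.Icc (0 : ℝ) T := ⟨le_rfl, hT.le⟩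
  rw [(ntq_hasFDerivAt_integral hT hU hF hb hz).fderiv,
    ContinuousLinearMap.intervalIntegral_apply
      (ntq_intervalIntegrable (ntq_contDiffOn_D2 hT hU hF).continuousOn hz h0 hb)]
  refine intervalIntegral.integral_congr fun s hs => ?_
  show _ = fderiv ℝ (fun y => F (s, y)) z e
  rw [(ntq_hasFDerivAt_slice hU hF (Set.uIcc_subset_Icc h0 hb hs) hz).fderiv]

omit [FiniteDimensional ℝ X] in
/-- the time part of the total derivative. -/
theorem ntq_hasFDerivWithinAt_time {T : ℝ} {U : Set X} {F : ℝ × X → E}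
    (hF : ContinuousOn F (Set.Icc 0 T ×ˢ U)) {b : ℝ} (hb : b ∈ Set.Icc (0 : ℝ) T) {z : X}
    (hz : z ∈ U) :
    HasFDerivWithinAt (fun q : ℝ × X => ∫ s in b..q.1, F (s, q.2))
      ((ContinuousLinearMap.fst ℝ ℝ X).smulRight (F (b, z))) (Set.Icc 0 T ×ˢ U) (b, z) := by
  rw [hasFDerivWithinAt_iff_isLittleO, Asymptotics.isLittleO_iff]
  intro ε hε
  obtain ⟨δ, hδ, hδF⟩ := Metric.continuousWithinAt_iff.1 (hF (b, z) ⟨hb, hz⟩) ε hε
  filter_upwards [self_mem_nhdsWithin, nhdsWithin_le_nhds (Metric.ball_mem_nhds (b, z) hδ)]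
    with q hqD hqδ
  have hq1 : |q.1 - b| ≤ ‖q - (b, z)‖ := by
    have := norm_fst_le (q - (b, z))
    simpa using this
  have e1 : (∫ s in b..q.1, F (s, q.2)) - (∫ s in b..(b, z).1, F (s, (b, z).2))
      - ((ContinuousLinearMap.fst ℝ ℝ X).smulRight (F (b, z))) (q - (b, z))
      = ∫ s in b..q.1, (F (s, q.2) - F (b, z)) := by
    rw [intervalIntegral.integral_sub (ntq_intervalIntegrable hF hqD.2 hb hqD.1)
      intervalIntegrable_const, intervalIntegral.integral_const, intervalIntegral.integral_same]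
    simp
  rw [e1]
  refine le_trans (intervalIntegral.norm_integral_le_of_norm_le_const (C := ε) fun s hs => ?_)
    (mul_le_mul_of_nonneg_left hq1 hε.le)
  have hs' : s ∈ Set.uIcc b q.1 := Set.uIoc_subset_uIcc hs
  have hsI : s ∈ Set.Icc (0 : ℝ) T := Set.uIcc_subset_Icc hb hqD.1 hs'
  have h2 : dist ((s, q.2) : ℝ × X) (b, z) < δ := by
    rw [Prod.dist_eq, max_lt_iff]
    have h3 : dist q (b, z) < δ := hqδ
    rw [Prod.dist_eq, max_lt_iff] at h3
    refine ⟨lt_of_le_of_lt ?_ h3.1, h3.2⟩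
    rw [Real.dist_eq, Real.dist_eq]
    exact Set.abs_sub_left_of_mem_uIcc hs'
  have := hδF (x := (s, q.2)) ⟨hsI, hqD.2⟩ h2
  rw [dist_eq_norm] at this
  exact this.le

/-- **the total derivative of the primitive within `[0,T] × U`.** -/
theorem ntq_hasFDerivWithinAt {T : ℝ} (hT : 0 < T) {U : Set X} (hU : IsOpen U) {F : ℝ × X → E}
    (hF : ContDiffOn ℝ ∞ F (Set.Icc 0 T ×ˢ U)) {q : ℝ × X} (hq : q ∈ Set.Icc (0 : ℝ) T ×ˢ U) :
    HasFDerivWithinAt (fun q : ℝ × X => ∫ s in (0 : ℝ)..q.1, F (s, q.2))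
      ((ContinuousLinearMap.fst ℝ ℝ X).smulRight (F q)
        + (∫ s in (0 : ℝ)..q.1, ntqD2 (Set.Icc 0 T ×ˢ U) F (s, q.2)).comp
          (ContinuousLinearMap.snd ℝ ℝ X)) (Set.Icc 0 T ×ˢ U) q := by
  obtain ⟨b, z⟩ := q
  have h0 : (0 : ℝ) ∈ Set.Icc (0 : ℝ) T := ⟨le_rfl, hT.le⟩
  have h1 := ntq_hasFDerivWithinAt_time hF.continuousOn hq.1 hq.2
  have h2 : HasFDerivWithinAt (fun q : ℝ × X => ∫ s in (0 : ℝ)..b, F (s, q.2))
      ((∫ s in (0 : ℝ)..b, ntqD2 (Set.Icc 0 T ×ˢ U) F (s, z)).comp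
        (ContinuousLinearMap.snd ℝ ℝ X)) (Set.Icc 0 T ×ˢ U) (b, z) :=
    (ntq_hasFDerivAt_integral hT hU hF hq.1 hq.2).comp_hasFDerivWithinAt (b, z)
      hasFDerivWithinAt_snd
  refine (h1.add h2).congr (fun p hp => ?_) ?_
  · rw [add_comm]
    exact (intervalIntegral.integral_add_adjacent_intervals
      (ntq_intervalIntegrable hF.continuousOn hp.2 h0 hq.1)
      (ntq_intervalIntegrable hF.continuousOn hp.2 hq.1 hp.1)).symm
  · simp

theorem ntq_contDiffOn_nat {T : ℝ} (hT : 0 < T) {U : Set X} (hU : IsOpen U) (m : ℕ) :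
    ∀ (E : Type) [NormedAddCommGroup E] [NormedSpace ℝ E] [CompleteSpace E] (F : ℝ × X → E),
      ContDiffOn ℝ ∞ F (Set.Icc 0 T ×ˢ U) →
      ContDiffOn ℝ m (fun q : ℝ × X => ∫ s in (0 : ℝ)..q.1, F (s, q.2)) (Set.Icc 0 T ×ˢ U) := by
  have hUD := (isTimeDom_Icc hT).uniqueDiffOn_prod hU
  induction m with
  | zero =>
    intro E _ _ _ F hF
    rw [Nat.cast_zero, contDiffOn_zero]
    exact fun q hq => (ntq_hasFDerivWithinAt hT hU hF hq).continuousWithinAt
  | succ m ih =>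
    intro E _ _ _ F hF
    rw [Nat.cast_succ, contDiffOn_succ_iff_fderivWithin hUD]
    refine ⟨fun q hq => (ntq_hasFDerivWithinAt hT hU hF hq).differentiableWithinAt, by simp, ?_⟩
    have h1 : ContDiffOn ℝ m (fun q : ℝ × X => (ContinuousLinearMap.fst ℝ ℝ X).smulRight (F q)
        + (∫ s in (0 : ℝ)..q.1, ntqD2 (Set.Icc 0 T ×ˢ U) F (s, q.2)).comp
          (ContinuousLinearMap.snd ℝ ℝ X)) (Set.Icc 0 T ×ˢ U) :=
      (contDiffOn_const.smulRight (hF.of_le (by exact_mod_cast le_top))).add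
        ((ih (X →L[ℝ] E) _ (ntq_contDiffOn_D2 hT hU hF)).clm_comp contDiffOn_const)
    exact h1.congr fun q hq => (ntq_hasFDerivWithinAt hT hU hF hq).fderivWithin (hUD q hq)

/-- **the primitive in time is smooth on `[0,T] × U`.** -/
theorem nt_contDiffOn_primitive {T : ℝ} (hT : 0 < T) {U : Set X} (hU : IsOpen U) {F : ℝ × X → E}
    (hF : ContDiffOn ℝ ∞ F (Set.Icc 0 T ×ˢ U)) :
    ContDiffOn ℝ ∞ (fun q : ℝ × X => ∫ s in (0 : ℝ)..q.1, F (s, q.2)) (Set.Icc 0 T ×ˢ U) :=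
  contDiffOn_infty.2 fun m => ntq_contDiffOn_nat hT hU m E F hF

/-- the time derivative of the primitive. -/
theorem nt_hasDerivWithinAt_primitive {T : ℝ} (hT : 0 < T) {U : Set X} {F : ℝ × X → E}
    (hF : ContDiffOn ℝ ∞ F (Set.Icc 0 T ×ˢ U)) {b : ℝ} (hb : b ∈ Set.Icc (0 : ℝ) T) {z : X}
    (hz : z ∈ U) :
    HasDerivWithinAt (fun b' => ∫ s in (0 : ℝ)..b', F (s, z)) (F (b, z)) (Set.Icc 0 T) b := by
  have h0 : (0 : ℝ) ∈ Set.Icc (0 : ℝ) T := ⟨le_rfl, hT.le⟩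
  have hc := ntq_continuousOn_time hF.continuousOn hz
  have : Fact (b ∈ Set.Icc (0 : ℝ) T) := ⟨hb⟩
  exact intervalIntegral.integral_hasDerivWithinAt_right
    (ntq_intervalIntegrable hF.continuousOn hz h0 hb)
    (hc.stronglyMeasurableAtFilter_nhdsWithin measurableSet_Icc b) (hc b hb)

end general

section levi

variable {ι : Type} [Fintype ι] [DecidableEq ι]

theorem ntq_intervalIntegrable_fderiv {T : ℝ} (hT : 0 < T) {U : Set (CE ι)} (hU : IsOpen U)
    {G : ℝ × CE ι → ℂ} (hG : ContDiffOn ℝ ∞ G (Set.Icc 0 T ×ˢ U)) {b : ℝ}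
    (hb : b ∈ Set.Icc (0 : ℝ) T) {w : CE ι} (hw : w ∈ U) (e : CE ι) :
    IntervalIntegrable (fun s => fderiv ℝ (fun y => G (s, y)) w e) volume 0 b :=
  ntq_intervalIntegrable (F := fun q : ℝ × CE ι => fderiv ℝ (fun y => G (q.1, y)) q.2 e)
    (contDiffOn_fderiv_slice (isTimeDom_Icc hT) hU hG e).continuousOn hw ⟨le_rfl, hT.le⟩ hb

theorem ntq_dz_primitive {T : ℝ} (hT : 0 < T) {U : Set (CE ι)} (hU : IsOpen U)
    {G : ℝ × CE ι → ℂ} (hG : ContDiffOn ℝ ∞ G (Set.Icc 0 T ×ˢ U)) {b : ℝ}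
    (hb : b ∈ Set.Icc (0 : ℝ) T) {w : CE ι} (hw : w ∈ U) (k : ι) :
    dz k (fun y => ∫ s in (0 : ℝ)..b, G (s, y)) w = ∫ s in (0 : ℝ)..b, dz k (fun y => G (s, y)) w := by
  unfold dz
  rw [nt_fderiv_primitive hT hU hG hb hw, nt_fderiv_primitive hT hU hG hb hw,
    intervalIntegral.integral_const_mul,
    intervalIntegral.integral_sub (ntq_intervalIntegrable_fderiv hT hU hG hb hw _)
      ((ntq_intervalIntegrable_fderiv hT hU hG hb hw _).const_mul _),
    intervalIntegral.integral_const_mul]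

theorem ntq_dzb_primitive {T : ℝ} (hT : 0 < T) {U : Set (CE ι)} (hU : IsOpen U)
    {G : ℝ × CE ι → ℂ} (hG : ContDiffOn ℝ ∞ G (Set.Icc 0 T ×ˢ U)) {b : ℝ}
    (hb : b ∈ Set.Icc (0 : ℝ) T) {w : CE ι} (hw : w ∈ U) (k : ι) :
    dzb k (fun y => ∫ s in (0 : ℝ)..b, G (s, y)) w
      = ∫ s in (0 : ℝ)..b, dzb k (fun y => G (s, y)) w := by
  unfold dzb
  rw [nt_fderiv_primitive hT hU hG hb hw, nt_fderiv_primitive hT hU hG hb hw,
    intervalIntegral.integral_const_mul,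
    intervalIntegral.integral_add (ntq_intervalIntegrable_fderiv hT hU hG hb hw _)
      ((ntq_intervalIntegrable_fderiv hT hU hG hb hw _).const_mul _),
    intervalIntegral.integral_const_mul]

/-- the Levi matrix of the primitive. -/
theorem nt_levi_primitive {T : ℝ} (hT : 0 < T) {U : Set (CE ι)} (hU : IsOpen U)
    {F : ℝ × CE ι → ℝ} (hF : ContDiffOn ℝ ∞ F (Set.Icc 0 T ×ˢ U)) {b : ℝ}
    (hb : b ∈ Set.Icc (0 : ℝ) T) {z : CE ι} (hz : z ∈ U) (j k : ι) :
    levi (fun y => ∫ s in (0 : ℝ)..b, F (s, y)) z j k =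
      ∫ s in (0 : ℝ)..b, levi (fun y => F (s, y)) z j k := by
  have hI := isTimeDom_Icc hT
  have hG := st_contDiffOn_ofReal hF
  have e1 : (fun w => dz k (fun y => (((∫ s in (0 : ℝ)..b, F (s, y)) : ℝ) : ℂ)) w) =ᶠ[𝓝 z]
      fun w => ∫ s in (0 : ℝ)..b, dz k (fun y => ((F (s, y) : ℝ) : ℂ)) w := by
    filter_upwards [hU.mem_nhds hz] with w hw
    rw [← ntq_dz_primitive hT hU hG hb hw k]
    congr 1
    funext y
    exact intervalIntegral.integral_ofReal.symm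
  show dzb j (fun w => dz k (fun y => (((∫ s in (0 : ℝ)..b, F (s, y)) : ℝ) : ℂ)) w) z = _
  rw [dzb_congr e1]
  exact ntq_dzb_primitive hT hU
    (G := fun q : ℝ × CE ι => dz k (fun y => ((F (q.1, y) : ℝ) : ℂ)) q.2)
    (contDiffOn_dz_slice hI hU hG k) hb hz j

end levi

end Claimed.Agent.R316
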