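import Claimed.Agent.R316.Pack018
import Claimed.Agent.R316.Base.NiTam.Chart

/-!
# Row 316, `BP-G10`, leaf `G10-1`: identities at a Kaehler normal point; positivity of the curvature term

Statements and proofs by helper268.  SORRY-FREE (modulo `CM/Normal.lean`, `CM/Curv.lean`).
Tools: `CW/Basic.lean`, `CW/Levi.lean` (rules for `dz`, `dzb`, commutation `dz_dzb_comm`-type lemmas, `dz_levi_comm`), `CW/MatFun.lean`
(`dzM`, `dzbM`, `dzM_mul`, `dzM_inv`-type rules, `ofReal_trace_inv_mul_re`), `CM/Forms.lean` (`tr_eq`, `IsHForm.contDiffAt`,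
`IsClosedForm.dzb`, `IsMetric.eventually_posDef`), `CM/Normal.lean` (`IsNormalAt.Rm_eq`, `.lap_eq`), `CM/Curv.lean` (`Rm_symm_pair`),
`CW/MatAlg.lean` (`exists_unitary_diag`).

RECIPES.  Write `G = g Φ`, `K = G⁻¹`, `∂_l = dz l`, `∂̄_m = dzb m`; at `0`: `G = 1`, `∂G = ∂̄G = 0`.
* (a) near `0`: `∂_l K = - K ∂_l G K`, so `∂K(0) = ∂̄K(0) = 0` and `∂̄_m∂_l K(0) = - ∂̄_m∂_l G(0)` (product rule; every other term contains `∂_l G(0) = 0`).
* `nt_ddc_tr_normal`: near `0`, `tr 𝓜 g B (Φ y) = ∑_{p,q} K(p,q) B(q,p)` (`tr_eq`; the trace is real: `ofReal_trace_inv_mul_re`), hence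
  `∂̄_j∂_k (tr) (0) = ∑_{p,q} ∂̄_j∂_k K(p,q)(0) B(q,p)(0) + ∑_p ∂̄_j∂_k B(p,p)(0)`; `- ∂̄_j∂_k G(p,q)(0) = Rm g Φ 0 q p k j` (`IsNormalAt.Rm_eq`);
  closedness twice: `∂̄_j∂_k B(p,p) = ∂̄_j∂_p B(p,k)` (`IsClosedForm` near `0`) `= ∂_p∂̄_j B(p,k) = ∂_p∂̄_p B(j,k)` (`IsClosedForm.dzb` near `0`) `= ∂̄_p∂_p B(j,k)`.
* `nt_sum_levi_qf`: near `z`, `(qf (E Φ y) v : ℂ) = ∑_{j,k} \bar v_j v_k E(j,k)(y)` (Hermitian ⟹ real); `dz`, `dzb` are linear.
* `nt_sum_dzb_dz_smulF`: Leibniz; the cross terms contain `∂G(0)` or `∂̄G(0)`; `∑_p ∂̄_p∂_p (θ∘Φ)(0) = lap θ` (`IsNormalAt.lap_eq`, the diagonal of `levi` is real);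
  `∂̄_p∂_p G(j,k)(0) = - Rm g Φ 0 k j p p = - Rm g Φ 0 p p k j` (`Rm_symm_pair`).
* `nt_master` = the three identities.
* `curvOp_nonneg`: `E = ∑_a μ_a e_a e_aᴴ`, `μ_a ≥ 0` (`exists_unitary_diag` / `Matrix.IsHermitian.spectral_theorem`), and for `E q p = e q * star (e p)` the sum is
  `bisec g Φ z e v` (indices `(j,k,l,m) := (q,p,k,j)`).
-/

set_option autoImplicit false
set_option linter.unusedSectionVars false
set_option linter.unusedVariables false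
open scoped ContDiff ComplexOrder Topology ComplexConjugate
open MeasureTheory

namespace Claimed.Agent.R316

variable {V : Type} [NormedAddCommGroup V] [NormedSpace ℝ V] [FiniteDimensional ℝ V]
variable {n : ℕ}
variable {𝓜 : CMfd V (Fin n)} {g : HFam V (Fin n)} {Φ : CE (Fin n) → V} {U : Set (CE (Fin n))}

/-- matrix form of the normalisation. -/
theorem ntp_dzM_zero (hN : IsNormalAt g Φ) (l : Fin n) : dzM l (g Φ) 0 = 0 := by
  ext j k; exact hN.dz0 j k l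

theorem ntp_dzbM_zero (hN : IsNormalAt g Φ) (l : Fin n) : dzbM l (g Φ) 0 = 0 := by
  ext j k; exact hN.dzb0 j k l

/-- closedness twice. -/
theorem ntp_closed_swap {B : HFam V (Fin n)} (hB : IsHForm 𝓜 B) (hcl : IsClosedForm 𝓜 B)
    (hΦ : 𝓜.IsHol Φ U) {z : CE (Fin n)} (hz : z ∈ U) (j k p : Fin n) :
    dzb j (dz k (fun y => B Φ y p p)) z = dzb p (dz p (fun y => B Φ y j k)) z := by
  have hU : U ∈ 𝓝 z := (CMfd.isOpen_dom hΦ).mem_nhds hz
  have h1 : dz k (fun y => B Φ y p p) =ᶠ[𝓝 z] dz p (fun y => B Φ y p k) :=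
    Filter.eventually_of_mem hU fun w hw => hcl Φ U hΦ w hw p p k
  have h2 : dzb j (fun y => B Φ y p k) =ᶠ[𝓝 z] dzb p (fun y => B Φ y j k) :=
    Filter.eventually_of_mem hU fun w hw => hcl.dzb hB hΦ hw p k j
  rw [dzb_congr h1, ← dz_dzb_comm (hB.contDiffAt_two hΦ hz p k), dz_congr h2,
    dz_dzb_comm (hB.contDiffAt_two hΦ hz j k)]

/-- `dd (tr_g B)` at a normal point, `B` closed:
`∂̄_j∂_k tr_g B = ∑_p ∂̄_p∂_p B(j,k) + ∑_{p,q} R_{q \bar p k \bar j} B(q,p)`. -/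
theorem nt_ddc_tr_normal (hg : IsKahler 𝓜 g) {B : HFam V (Fin n)} (hB : IsHForm 𝓜 B)
    (hcl : IsClosedForm 𝓜 B) (hΦ : 𝓜.IsHol Φ U) (h0 : (0 : CE (Fin n)) ∈ U) (hN : IsNormalAt g Φ)
    (j k : Fin n) :
    ddc (tr 𝓜 g B) Φ 0 j k = ∑ p, dzb p (fun w => dz p (fun y => B Φ y j k) w) 0
      + ∑ p, ∑ q, Rm g Φ 0 q p k j * B Φ 0 q p := by
  have hm : IsMetric 𝓜 g := hg.toIsMetric
  have hU : U ∈ 𝓝 (0 : CE (Fin n)) := (CMfd.isOpen_dom hΦ).mem_nhds h0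
  have hG2 : ∀ a b, ContDiffAt ℝ 2 (fun w => g Φ w a b) 0 := hm.toIsHForm.contDiffAt_two hΦ h0
  have hB2 : ∀ a b, ContDiffAt ℝ 2 (fun w => B Φ w a b) 0 := hB.contDiffAt_two hΦ h0
  have hK2 := ntk_contDiffAt_inv hG2 hN.one
  have e1 : (fun y => ((tr 𝓜 g B (Φ y) : ℝ) : ℂ)) =ᶠ[𝓝 0] fun y => ((g Φ y)⁻¹ * B Φ y).trace :=
    Filter.eventually_of_mem hU fun w hw => by
      show ((tr 𝓜 g B (Φ w) : ℝ) : ℂ) = _
      rw [tr_eq hm hB hΦ hw, ofReal_trace_inv_mul_re (hm.posDef hΦ w hw) (hB.herm hΦ w hw)]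
  have e2 : ddc (tr 𝓜 g B) Φ 0 j k = dzb j (dz k (fun y => ((g Φ y)⁻¹ * B Φ y).trace)) 0 :=
    dzb_congr (dz_eventuallyEq e1)
  rw [e2, ntk_dzb_dz_trace (H := fun y => (g Φ y)⁻¹ * B Φ y) (contDiffAt_matMul hK2 hB2),
    ntk_dzbM_dzM_mul (A := fun y => (g Φ y)⁻¹) hK2 hB2,
    ntk_dzbM_dzM_inv_normal hG2 hN.one (ntp_dzM_zero hN k),
    ntk_dzM_inv_normal hG2 hN.one (ntp_dzM_zero hN k),
    ntk_dzbM_inv_normal hG2 hN.one (ntp_dzbM_zero hN j), hN.one]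
  simp only [Matrix.zero_mul, add_zero, inv_one, Matrix.one_mul, Matrix.trace_add]
  rw [add_comm]
  congr 1
  · simp only [Matrix.trace, Matrix.diag_apply]
    exact Finset.sum_congr rfl fun p _ => ntp_closed_swap hB hcl hΦ h0 j k p
  · rw [matFun_trace_mul, Finset.sum_comm]
    refine Finset.sum_congr rfl fun p _ => Finset.sum_congr rfl fun q _ => ?_
    rw [hN.Rm_eq q p k j]
    rfl

theorem ntp_qf_ofReal_sum {A : Matrix (Fin n) (Fin n) ℂ} (hA : A.IsHermitian) (v : Fin n → ℂ) :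
    ((qf A v : ℝ) : ℂ) = ∑ j, ∑ k, star (v j) * v k * A j k := by
  rw [qf_ofReal v hA]
  simp only [dotProduct, Matrix.mulVec, Pi.star_apply, Finset.mul_sum]
  refine Finset.sum_congr rfl fun j _ => Finset.sum_congr rfl fun k _ => ?_
  ring

/-- `∂̄_p∂_p` of `y ↦ vᴴ E(y) v`. -/
theorem ntp_levi_qf {E : HFam V (Fin n)} (hE : IsHForm 𝓜 E) (hΦ : 𝓜.IsHol Φ U)
    {z : CE (Fin n)} (hz : z ∈ U) (v : Fin n → ℂ) (a b : Fin n) :
    levi (fun y => qf (E Φ y) v) z a b =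
      ∑ j, ∑ k, star (v j) * v k * dzb a (dz b (fun y => E Φ y j k)) z := by
  have hE2 : ∀ j k, ContDiffAt ℝ 2 (fun w => E Φ w j k) z := hE.contDiffAt_two hΦ hz
  have e1 : (fun y => ((qf (E Φ y) v : ℝ) : ℂ)) =ᶠ[𝓝 z]
      fun y => ∑ j, ∑ k, star (v j) * v k * E Φ y j k :=
    (hE.eventually_isHermitian hΦ hz).mono fun w hw => ntp_qf_ofReal_sum hw v
  have e2 : levi (fun y => qf (E Φ y) v) z a b
      = dzb a (dz b (fun y => ∑ j, ∑ k, star (v j) * v k * E Φ y j k)) z :=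
    dzb_congr (dz_eventuallyEq e1)
  rw [e2, ntk_dzb_dz_sum Finset.univ (fun j y => ∑ k, star (v j) * v k * E Φ y j k)
    (fun j _ => ContDiffAt.sum fun k _ => contDiffAt_const.mul (hE2 j k))]
  refine Finset.sum_congr rfl fun j _ => ?_
  rw [ntk_dzb_dz_sum Finset.univ (fun k y => star (v j) * v k * E Φ y j k)
    (fun k _ => contDiffAt_const.mul (hE2 j k))]
  exact Finset.sum_congr rfl fun k _ => ntk_dzb_dz_const_mul _ (hE2 j k)

/-- trace of the Levi matrix of `y ↦ vᴴ E(y) v`, `v` constant (any parametrisation). -/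
theorem nt_sum_levi_qf {E : HFam V (Fin n)} (hE : IsHForm 𝓜 E) (hΦ : 𝓜.IsHol Φ U)
    {z : CE (Fin n)} (hz : z ∈ U) (v : Fin n → ℂ) :
    ∑ p, (levi (fun y => qf (E Φ y) v) z p p).re =
      (∑ j, ∑ k, star (v j) * v k * ∑ p, dzb p (fun w => dz p (fun y => E Φ y j k) w) z).re := by
  rw [← Complex.re_sum]
  congr 1
  simp_rw [ntp_levi_qf hE hΦ hz v, Finset.mul_sum]
  rw [Finset.sum_comm]
  refine Finset.sum_congr rfl fun j _ => ?_
  rw [Finset.sum_comm]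

/-- `∑_p ∂̄_p∂_p (θ g)(j,k) = Δθ δ_{jk} - θ ∑_p R_{p \bar p k \bar j}` at a normal point. -/
theorem nt_sum_dzb_dz_smulF (hg : IsKahler 𝓜 g) {θ : V → ℝ} (hθ : 𝓜.Smooth θ) (hΦ : 𝓜.IsHol Φ U)
    (h0 : (0 : CE (Fin n)) ∈ U) (hN : IsNormalAt g Φ) (j k : Fin n) :
    ∑ p, dzb p (fun w => dz p (fun y => smulF θ g Φ y j k) w) 0 =
      ((lap 𝓜 g θ (Φ 0) : ℝ) : ℂ) * (1 : Matrix (Fin n) (Fin n) ℂ) j k
        - ((θ (Φ 0) : ℝ) : ℂ) * ∑ p, Rm g Φ 0 p p k j := by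
  have hm : IsMetric 𝓜 g := hg.toIsMetric
  have hG2 : ∀ a b, ContDiffAt ℝ 2 (fun w => g Φ w a b) 0 := hm.toIsHForm.contDiffAt_two hΦ h0
  have hθ2 : ContDiffAt ℝ 2 (θ ∘ Φ) 0 := hθ.contDiffAt_comp_two hΦ h0
  have hθc : ContDiffAt ℝ 2 (fun y => (((θ ∘ Φ) y : ℝ) : ℂ)) 0 := contDiffAt_ofReal hθ2
  have h1 : ∀ p, dzb p (fun w => dz p (fun y => smulF θ g Φ y j k) w) 0 =
      levi (θ ∘ Φ) 0 p p * (1 : Matrix (Fin n) (Fin n) ℂ) j k
        - ((θ (Φ 0) : ℝ) : ℂ) * Rm g Φ 0 p p k j := by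
    intro p
    have e : (fun y => smulF θ g Φ y j k) = fun y => (((θ ∘ Φ) y : ℝ) : ℂ) * g Φ y j k := by
      funext y; simp [smulF]
    have e' : dzb p (fun w => dz p (fun y => smulF θ g Φ y j k) w) 0
        = dzb p (dz p (fun y => (((θ ∘ Φ) y : ℝ) : ℂ) * g Φ y j k)) 0 := by rw [e]
    rw [e', ntk_dzb_dz_mul hθc (hG2 j k), hN.dz0 j k p, hN.dzb0 j k p, hN.one,
      ← Rm_symm_pair hg hΦ h0 k j p p, hN.Rm_eq k j p p]
    simp only [mul_zero, add_zero, Function.comp]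
    rw [mul_neg, sub_neg_eq_add]
    rfl
  simp_rw [h1]
  rw [Finset.sum_sub_distrib, ← Finset.sum_mul, ← Finset.mul_sum]
  congr 2
  rw [hN.lap_eq hm hθ hΦ h0, Complex.ofReal_sum]
  refine Finset.sum_congr rfl fun p _ => ?_
  have h2 := (levi_isHermitian hθ2).apply p p
  exact (Complex.conj_eq_iff_real.1 h2).elim fun r hr => by rw [hr, Complex.ofReal_re]

/-- **the master identity of Hamilton's trick**: for `E = B + θ g`, `v` constant, at a normal point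
`(dd tr_g B)(v, \bar v) - Δ[E(v, \bar v)] = R(v, \bar v, E) - Δθ |v|²`. -/
theorem nt_master (hg : IsKahler 𝓜 g) {B : HFam V (Fin n)} (hB : IsHForm 𝓜 B)
    (hcl : IsClosedForm 𝓜 B) {θ : V → ℝ} (hθ : 𝓜.Smooth θ) (hΦ : 𝓜.IsHol Φ U)
    (h0 : (0 : CE (Fin n)) ∈ U) (hN : IsNormalAt g Φ) (v : Fin n → ℂ) :
    qf (ddc (tr 𝓜 g B) Φ 0) v
        - ∑ p, (levi (fun y => qf (B Φ y + smulF θ g Φ y) v) 0 p p).re =
      curvOp g Φ 0 v (B Φ 0 + smulF θ g Φ 0) - lap 𝓜 g θ (Φ 0) * qf 1 v := by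
  have hm : IsMetric 𝓜 g := hg.toIsMetric
  have hS : IsHForm 𝓜 (smulF θ g) := IsHForm.smulF hθ hm.toIsHForm
  have hE : IsHForm 𝓜 (fun Φ z => B Φ z + smulF θ g Φ z) := hB.add hS
  have h1 := nt_sum_levi_qf hE hΦ h0 v
  have h2 : ∀ j k, ∑ p, dzb p (fun w => dz p (fun y => (B Φ y + smulF θ g Φ y) j k) w) 0 =
      ∑ p, dzb p (fun w => dz p (fun y => B Φ y j k) w) 0
        + (((lap 𝓜 g θ (Φ 0) : ℝ) : ℂ) * (1 : Matrix (Fin n) (Fin n) ℂ) j k
        - ((θ (Φ 0) : ℝ) : ℂ) * ∑ p, Rm g Φ 0 p p k j) := by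
    intro j k
    rw [← nt_sum_dzb_dz_smulF hg hθ hΦ h0 hN j k, ← Finset.sum_add_distrib]
    refine Finset.sum_congr rfl fun p _ => ?_
    exact ntk_dzb_dz_add (hB.contDiffAt_two hΦ h0 j k) (hS.contDiffAt_two hΦ h0 j k)
  rw [h1, qf_eq_sum, qf_eq_sum, curvOp, ← Complex.sub_re, ← Complex.re_ofReal_mul, ← Complex.sub_re]
  congr 1
  simp_rw [h2, nt_ddc_tr_normal hg hB hcl hΦ h0 hN]
  rw [← Finset.sum_sub_distrib, Finset.mul_sum, ← Finset.sum_sub_distrib]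
  refine Finset.sum_congr rfl fun j _ => ?_
  rw [← Finset.sum_sub_distrib, Finset.mul_sum, ← Finset.sum_sub_distrib]
  refine Finset.sum_congr rfl fun k _ => ?_
  have h3 : ∑ p, ∑ q, star (v j) * v k * Rm g Φ 0 q p k j * (B Φ 0 + smulF θ g Φ 0) q p =
      star (v j) * v k * (∑ p, ∑ q, Rm g Φ 0 q p k j * B Φ 0 q p
        + ((θ (Φ 0) : ℝ) : ℂ) * ∑ p, Rm g Φ 0 p p k j) := by
    rw [Finset.mul_sum, ← Finset.sum_add_distrib, Finset.mul_sum]
    refine Finset.sum_congr rfl fun p _ => ?_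
    have h4 : ∀ q, star (v j) * v k * Rm g Φ 0 q p k j * (B Φ 0 + smulF θ g Φ 0) q p =
        star (v j) * v k * (Rm g Φ 0 q p k j * B Φ 0 q p)
          + (if q = p then star (v j) * v k * (((θ (Φ 0) : ℝ) : ℂ) * Rm g Φ 0 q p k j) else 0) := by
      intro q
      simp only [Matrix.add_apply, smulF, hN.one, Matrix.smul_apply, Matrix.one_apply, smul_eq_mul]
      split_ifs <;> ring
    simp_rw [h4]
    rw [Finset.sum_add_distrib, Finset.sum_ite_eq' Finset.univ p, if_pos (Finset.mem_univ p),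
      ← Finset.mul_sum]
    ring
  rw [h3]
  simp only [Complex.star_def]
  ring

theorem ntp_sum4_reverse {α : Type} [Fintype α] (F : α → α → α → α → ℂ) :
    ∑ j, ∑ k, ∑ p, ∑ q, F j k p q = ∑ q, ∑ p, ∑ k, ∑ j, F j k p q := by
  calc ∑ j, ∑ k, ∑ p, ∑ q, F j k p q
      = ∑ j, ∑ k, ∑ q, ∑ p, F j k p q :=
        Finset.sum_congr rfl fun j _ => Finset.sum_congr rfl fun k _ => Finset.sum_comm
    _ = ∑ j, ∑ q, ∑ k, ∑ p, F j k p q := Finset.sum_congr rfl fun j _ => Finset.sum_comm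
    _ = ∑ q, ∑ j, ∑ k, ∑ p, F j k p q := Finset.sum_comm
    _ = ∑ q, ∑ j, ∑ p, ∑ k, F j k p q :=
        Finset.sum_congr rfl fun q _ => Finset.sum_congr rfl fun j _ => Finset.sum_comm
    _ = ∑ q, ∑ p, ∑ j, ∑ k, F j k p q := Finset.sum_congr rfl fun q _ => Finset.sum_comm
    _ = ∑ q, ∑ p, ∑ k, ∑ j, F j k p q :=
        Finset.sum_congr rfl fun q _ => Finset.sum_congr rfl fun p _ => Finset.sum_comm

/-- nonnegative bisectional curvature: the curvature term is nonnegative on nonnegative forms. -/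
theorem curvOp_nonneg (hb : BisecNonneg 𝓜 g) (hΦ : 𝓜.IsHol Φ U) {z : CE (Fin n)} (hz : z ∈ U)
    (v : Fin n → ℂ) {E : Matrix (Fin n) (Fin n) ℂ} (hE : E.PosSemidef) : 0 ≤ curvOp g Φ z v E := by
  obtain ⟨R, hR, rfl⟩ := exists_sqrt_posSemidef hE
  have h1 : curvOp g Φ z v (R * R) = ∑ a, bisec g Φ z (fun q => R q a) v := by
    simp only [curvOp, bisec]
    rw [← Complex.re_sum]
    congr 1
    have h2 : ∀ q p, (R * R) q p = ∑ a, R q a * star (R p a) := by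
      intro q p
      rw [Matrix.mul_apply]
      refine Finset.sum_congr rfl fun a _ => ?_
      rw [← hR.isHermitian.apply a p]
    simp_rw [h2, Finset.mul_sum]
    rw [ntp_sum4_reverse]
    -- move the sum over `a` outside
    calc ∑ q, ∑ p, ∑ k, ∑ j, ∑ a, star (v j) * v k * Rm g Φ z q p k j * (R q a * star (R p a))
        = ∑ q, ∑ p, ∑ k, ∑ a, ∑ j, star (v j) * v k * Rm g Φ z q p k j * (R q a * star (R p a)) :=
          Finset.sum_congr rfl fun q _ => Finset.sum_congr rfl fun p _ =>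
            Finset.sum_congr rfl fun k _ => Finset.sum_comm
      _ = ∑ q, ∑ p, ∑ a, ∑ k, ∑ j, star (v j) * v k * Rm g Φ z q p k j * (R q a * star (R p a)) :=
          Finset.sum_congr rfl fun q _ => Finset.sum_congr rfl fun p _ => Finset.sum_comm
      _ = ∑ q, ∑ a, ∑ p, ∑ k, ∑ j, star (v j) * v k * Rm g Φ z q p k j * (R q a * star (R p a)) :=
          Finset.sum_congr rfl fun q _ => Finset.sum_comm
      _ = ∑ a, ∑ q, ∑ p, ∑ k, ∑ j, star (v j) * v k * Rm g Φ z q p k j * (R q a * star (R p a)) :=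
          Finset.sum_comm
      _ = _ := by
          refine Finset.sum_congr rfl fun a _ => Finset.sum_congr rfl fun q _ =>
            Finset.sum_congr rfl fun p _ => Finset.sum_congr rfl fun k _ =>
            Finset.sum_congr rfl fun j _ => ?_
          ring
  rw [h1]
  exact Finset.sum_nonneg fun a _ => hb Φ U hΦ z hz _ _

end Claimed.Agent.R316
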